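import Crest.Agent.N334.Soft.Fin

/-!
# Row 334 (helper52): finite-volume tightness implies the statement of S0519
-/

set_option autoImplicit false

open Finset MeasureTheory Filter Topology
open scoped ENNReal InnerProductSpace

namespace Crest.Agent.N334.Soft

open Crest.MathPhysics.Anderson Crest.Agent.N336.Q

variable {d : ℕ}

lemma inner_translate (a : Fin d → ℤ) (u w : Ell2 d) :
    ⟪translate d a u, w⟫_ℂ = ⟪u, translate d (-a) w⟫_ℂ := by
  rw [lp.inner_eq_tsum, lp.inner_eq_tsum, ← (Equiv.addRight a).tsum_eq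
    fun x => ⟪u x, translate d (-a) w x⟫_ℂ]
  simp [translate_apply]

lemma latticeOp_symm (t : ℝ) (v : lp (fun _ : Fin d → ℤ => ℝ) ⊤) (u w : Ell2 d) :
    ⟪latticeOp d t v u, w⟫_ℂ = ⟪u, latticeOp d t v w⟫_ℂ := by
  have h2 : ⟪multiply d v u, w⟫_ℂ = ⟪u, multiply d v w⟫_ℂ := by
    rw [lp.inner_eq_tsum, lp.inner_eq_tsum]
    refine tsum_congr fun x => ?_
    simp only [multiply_apply, RCLike.inner_apply, map_mul, Complex.conj_ofReal]; ring
  simp only [latticeOp, _root_.add_apply, _root_.smul_apply, _root_.sum_apply, inner_add_left,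
    inner_add_right, inner_smul_left, inner_smul_right, sum_inner, inner_sum, inner_translate, h2, neg_neg,
    Complex.conj_ofReal]
  congr 2
  exact sum_congr rfl fun j _ => add_comm _ _

lemma tb_of_tail {S : Set (Ell2 d)} {M : ℝ} (h0 : 0 ≤ M) (hM : ∀ u ∈ S, ‖u‖ ≤ M)
    (h : ∀ δ > 0, ∃ B, ∀ u ∈ S, ‖u - fs B u‖ ≤ δ) : TotallyBounded S := by
  refine Metric.totallyBounded_iff.2 fun ε hε => ?_
  obtain ⟨B, hB⟩ := h (ε / 2) (by positivity)
  let g : (B → ℂ) → Ell2 d := fun f => ∑ z : B, lp.single 2 z.1 (f z)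
  have hg : Continuous g := continuous_finsetSum _ fun z _ =>
    (lp.isometry_single (E := fun _ : Fin d → ℤ => ℂ) z.1).continuous.comp (continuous_apply z)
  obtain ⟨t, ht, ht'⟩ := Metric.totallyBounded_iff.1
    ((isCompact_closedBall 0 M).image hg).totallyBounded (ε / 2) (by positivity)
  refine ⟨t, ht, fun u hu => ?_⟩
  have : fs B u ∈ g '' Metric.closedBall 0 M := ⟨fun z => u z,
    mem_closedBall_zero_iff.2 ((pi_norm_le_iff_of_nonneg h0).2 fun z =>
      (lp.norm_apply_le_norm two_ne_zero u z.1).trans (hM u hu)),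
    sum_coe_sort B fun z => lp.single 2 z (u z)⟩
  obtain ⟨y, hy, hy'⟩ := Set.mem_iUnion₂.1 (ht' this)
  refine Set.mem_iUnion₂.2 ⟨y, hy, (dist_triangle u (fs B u) y).trans_lt ?_⟩
  have := hB u hu
  rw [Metric.mem_ball] at hy'
  rw [dist_eq_norm]; linarith

/-- distance to the part supported on `B` -/
noncomputable def out (B : Finset (Fin d → ℤ)) (u : Ell2 d) : ℝ := ‖u - fs B u‖

/-- the ball of radius `R` -/
noncomputable def box (R : ℕ) : Finset (Fin 2 → ℤ) := Fintype.piFinset fun _ => Icc (-R : ℤ) R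

lemma FinVol.tail_ext {n : ℕ} (F : FinVol n) (R : ℕ) (u : Vec F.ι) :
    out (box R) (F.ext u) = tl (F.far R) u := by
  have h1 : ∀ y, F.e y ∈ box R ↔ y ∉ F.far R := fun y => by simp [box, FinVol.far, abs_le]
  have h2 : ∀ y, F.ext u (F.e y) = u y := fun y => by simp [F.ext_apply, F.e.injective.eq_iff]
  rw [out, ← sq_eq_sq₀ (norm_nonneg _) (tl_nonneg _ _), tl_sq, norm_sq_of_supp _ ((F.far R).map F.e),
    sum_map]
  · refine sum_congr rfl fun y hy => ?_
    rw [lp.coeFn_sub, Pi.sub_apply, fs_apply, if_neg (by simp [h1, hy]), sub_zero, h2]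
  · intro z hz
    rw [lp.coeFn_sub, Pi.sub_apply, fs_apply]
    split_ifs with hb
    · exact sub_self _
    · rw [sub_zero, F.ext_apply]
      refine sum_eq_zero fun y _ => if_neg ?_
      rintro rfl
      exact hz (mem_map_of_mem _ (by simpa [h1] using hb))

/-- the rescaled Hamiltonian -/
noncomputable abbrev Xop (h : ℝ) (ω : (Fin 2 → ℤ) → unitInterval) : Ell2 2 →L[ℂ] Ell2 2 :=
  (((2 * (4 + h))⁻¹ : ℝ) : ℂ) • latticeOp 2 1 (h • centredPotentialBdd ω)

variable {h : ℝ}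

lemma norm_H_le (hh : 0 < h) (ω : (Fin 2 → ℤ) → unitInterval) :
    ‖latticeOp 2 1 (h • centredPotentialBdd ω)‖ ≤ 4 + h :=
  (norm_latticeOp_le _ _).trans (by have := norm_pot_le hh.le ω; norm_num; linarith)

lemma norm_Xop_le (hh : 0 < h) (ω : (Fin 2 → ℤ) → unitInterval) : ‖Xop h ω‖ ≤ 1 / 2 := by
  rw [norm_smul, Complex.norm_real, Real.norm_of_nonneg (by positivity),
    inv_mul_le_iff₀ (by positivity)]
  linarith [norm_H_le hh ω]

lemma Xop_symm (h : ℝ) (ω : (Fin 2 → ℤ) → unitInterval) :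
    (Xop h ω : Ell2 2 →ₗ[ℂ] Ell2 2).IsSymmetric := fun u w => by
  change ⟪(_ : ℂ) • latticeOp 2 1 _ u, w⟫_ℂ = ⟪u, (_ : ℂ) • latticeOp 2 1 _ w⟫_ℂ
  rw [inner_smul_left, inner_smul_right, latticeOp_symm, Complex.conj_ofReal]

lemma prob_tail (hh : 0 < h) (hT : TightStmt h) {δ η : ℝ} (hδ : 0 < δ) (hη : 0 < η) : ∃ R,
    siteMeasure (Fin 2 → ℤ) {ω | ∃ k, δ < out (box R) (ch (Xop h ω) (lp.single 2 0 1) k)} ≤
      ENNReal.ofReal η := by
  set C := Real.pi / (δ / 2) ^ 2 / (2 * h)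
  have hC : 0 < C := by have := Real.pi_pos; positivity
  obtain ⟨R, hR⟩ := hT (min ((δ / (4 * h)) ^ 2) (η / C)) (by positivity)
  refine ⟨R, ?_⟩
  let A : ℕ → Set ((Fin 2 → ℤ) → unitInterval) := fun N =>
    {ω | ∃ k ≤ N, δ < out (box R) (ch (Xop h ω) (lp.single 2 0 1) k)}
  have hA : Monotone A := fun N N' hN ω ⟨k, hk, hk'⟩ => ⟨k, hk.trans hN, hk'⟩
  refine (measure_mono (t := ⋃ N, A N) ?_).trans ?_
  · exact fun ω ⟨k, hk⟩ => Set.mem_iUnion.2 ⟨k, k, le_rfl, hk⟩
  rw [hA.measure_iUnion]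
  refine iSup_le fun N => ?_
  obtain ⟨F, hF⟩ := hR N
  refine (measure_mono ?_).trans ((F.prob_le hh R (a := δ / (4 * h)) (b := (δ / 2) ^ 2)
    (by positivity) (by positivity)).trans ?_)
  · rintro ω ⟨k, hk, hk'⟩
    refine ⟨k, ?_⟩
    rw [← (F.ext_orb h ω k hk).2, F.tail_ext] at hk'
    rw [Real.sqrt_sq (by positivity)]
    convert hk' using 1
    field_simp; ring
  · refine (mul_le_mul_right ((measure_mono ?_).trans hF) _).trans ?_
    · exact fun p hp => ⟨hp.1, (min_le_left _ _).trans_lt hp.2⟩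
    rw [← ENNReal.ofReal_mul hC.le]
    refine ENNReal.ofReal_le_ofReal ?_
    rw [mul_comm, ← le_div_iff₀ hC]
    exact min_le_right _ _

lemma ae_tb (hh : 0 < h) (hT : TightStmt h) : ∀ᵐ ω ∂(siteMeasure (Fin 2 → ℤ)),
    TotallyBounded (Set.range (ch (Xop h ω) (lp.single 2 0 1))) := by
  have h1 : ∀ m : ℕ, ∀ᵐ ω ∂(siteMeasure (Fin 2 → ℤ)), ∃ R, ∀ k,
      out (box R) (ch (Xop h ω) (lp.single 2 0 1) k) ≤ 1 / ((m : ℝ) + 1) := fun m => by
    rw [ae_iff]
    refine le_antisymm (ENNReal.le_of_forall_pos_le_add fun η hη _ => ?_) zero_le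
    obtain ⟨R, hR⟩ := prob_tail hh hT (Nat.one_div_pos_of_nat (n := m)) (η := η) hη
    rw [zero_add, ← ENNReal.ofReal_coe_nnreal]
    refine (measure_mono fun ω hω => ?_).trans hR
    exact not_forall_not.1 fun h => hω ⟨R, fun k => not_lt.1 (h k)⟩
  filter_upwards [ae_all_iff.2 h1] with ω hω
  refine tb_of_tail (by positivity) (Set.forall_mem_range.2 fun k =>
    (ch_bounds (Xop_symm h ω) (norm_Xop_le hh ω) _ k).2) fun δ hδ => ?_
  obtain ⟨m, hm⟩ := exists_nat_one_div_lt hδ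
  obtain ⟨R, hR⟩ := hω m
  exact ⟨box R, Set.forall_mem_range.2 fun k => (hR k).trans hm.le⟩

lemma ae_tb_all (hh : 0 < h) (hT : TightStmt h) : ∀ᵐ ω ∂(siteMeasure (Fin 2 → ℤ)), ∀ x,
    TotallyBounded (Set.range (ch (Xop h ω) (lp.single 2 x 1))) := by
  refine ae_all_iff.2 fun x => ?_
  have h1 : (siteMeasure (Fin 2 → ℤ)).map (fun ω y => ω (y + x)) = siteMeasure (Fin 2 → ℤ) :=
    Measure.map_infinitePi_infinitePi_of_inj (P := fun _ => (volume : Measure unitInterval))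
      (add_left_injective x)
  have h2 := ae_tb hh hT
  rw [← h1] at h2
  filter_upwards [ae_of_ae_map (Measurable.aemeasurable (by fun_prop)) h2] with ω hω
  have h3 : translate 2 (-x) (lp.single 2 0 1) = lp.single 2 x 1 := by
    ext y; simp [translate_apply, lp.single_apply, Pi.single_apply, add_neg_eq_zero]
  have h4 := ch_map (X := Xop h fun y => ω (y + x)) (Y := Xop h ω) (translate 2 (-x)) (fun a => by
    rw [_root_.smul_apply, _root_.smul_apply, map_smul]
    congr 1; ext y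
    simp only [translate_apply, latticeOp_apply, applyOp, pot_apply, centredPotential,
      neg_add_cancel_right, sub_eq_add_neg]
    simp only [add_right_comm y (-x)]) (lp.single 2 0 1)
  rw [← h3, ← funext h4, ← Function.comp_def, Set.range_comp]
  exact hω.image (ContinuousLinearMap.uniformContinuous _)

theorem s0519_of_basis (hh : 0 < h) (hb : ∀ᵐ ω ∂(siteMeasure (Fin 2 → ℤ)),
    ∃ (ι : Type) (b : HilbertBasis ι ℂ (Ell2 2)), ∀ i, ∃ E : ℝ,
      latticeOp 2 1 (h • centredPotentialBdd ω) (b i) = (E : ℂ) • b i) :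
    ∀ᵐ ω ∂(siteMeasure (Fin 2 → ℤ)),
      (∃ (ι : Type) (b : HilbertBasis ι ℂ (lp (fun _ : Fin 2 → ℤ => ℂ) 2)),
        ∀ i, ∃ E : ℝ,
          applyOp 2 1 (fun x => h * centredPotential ω x) (b i) = (E : ℂ) • ⇑(b i)) ∧
      closure {E : ℝ | ∃ u : lp (fun _ : Fin 2 → ℤ => ℂ) 2, u ≠ 0 ∧
          applyOp 2 1 (fun x => h * centredPotential ω x) u = (E : ℂ) • ⇑u} =
        Set.Icc (-4 - h) (4 + h) := by
  filter_upwards [hb, ae_weyl (d := 2) one_le_two 1 hh] with ω ⟨ι, b, hb'⟩ h2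
  set H := latticeOp 2 1 (h • centredPotentialBdd ω) with hH
  have h3 : ∀ (u : Ell2 2) (E : ℝ), applyOp 2 1 (fun x => h * centredPotential ω x) u =
      (E : ℂ) • ⇑u ↔ H u = (E : ℂ) • u := fun u E => by
    rw [← pot_apply, ← latticeOp_apply, ← lp.coeFn_smul]
    exact ⟨lp.ext, congrArg _⟩
  simp only [h3]
  refine ⟨⟨ι, b, hb'⟩, (closure_minimal ?_ isClosed_Icc).antisymm fun E hE => ?_⟩
  · rintro E ⟨u, hu, hE⟩
    have h4 := (H.le_opNorm u).trans (mul_le_mul_of_nonneg_right (norm_H_le hh ω) (norm_nonneg u))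
    rw [hE, norm_smul, Complex.norm_real, Real.norm_eq_abs,
      mul_le_mul_iff_left₀ (norm_pos_iff.2 hu), abs_le] at h4
    exact ⟨by linarith [h4.1], h4.2⟩
  · refine Metric.mem_closure_iff.2 fun η hη => ?_
    obtain ⟨u, hu⟩ := h2 E (by rw [abs_le]; constructor <;> norm_num <;> linarith [hE.1, hE.2]) η hη
    by_contra hc
    refine hu.not_ge ?_
    rw [← b.repr.norm_map u, ← b.repr.norm_map (H u - _), ← Real.norm_of_nonneg hη.le,
      ← Complex.norm_real, ← norm_smul]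
    refine lp.norm_mono two_ne_zero fun i => ?_
    obtain ⟨μ, hμ⟩ := hb' i
    have h4 : η ≤ dist E μ := not_lt.1 fun h => hc ⟨μ, ⟨b i, b.orthonormal.ne_zero i, hμ⟩, h⟩
    rw [lp.coeFn_smul, Pi.smul_apply, b.repr_apply_apply, b.repr_apply_apply, inner_sub_right,
      ← latticeOp_symm, ← hH, hμ, inner_smul_left, inner_smul_right, ← sub_mul, norm_smul, norm_mul,
      Complex.conj_ofReal, ← Complex.ofReal_sub, Complex.norm_real, Complex.norm_real,
      Real.norm_of_nonneg hη.le, norm_sub_rev]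
    exact mul_le_mul_of_nonneg_right h4 (norm_nonneg _)

/-- **Soft end of S0519.** -/
theorem s0519_of (hh : 0 < h) (hT : TightStmt h) :
    ∀ᵐ ω ∂(siteMeasure (Fin 2 → ℤ)),
      (∃ (ι : Type) (b : HilbertBasis ι ℂ (lp (fun _ : Fin 2 → ℤ => ℂ) 2)),
        ∀ i, ∃ E : ℝ,
          applyOp 2 1 (fun x => h * centredPotential ω x) (b i) = (E : ℂ) • ⇑(b i)) ∧
      closure {E : ℝ | ∃ u : lp (fun _ : Fin 2 → ℤ => ℂ) 2, u ≠ 0 ∧
          applyOp 2 1 (fun x => h * centredPotential ω x) u = (E : ℂ) • ⇑u} =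
        Set.Icc (-4 - h) (4 + h) := by
  refine s0519_of_basis hh ?_
  filter_upwards [ae_tb_all hh hT] with ω h1
  obtain ⟨ι, b, hb⟩ := exists_eigenbasis (Xop_symm h ω) (orth_eq_bot (Xop_symm h ω)
    (norm_Xop_le hh ω) _ (fun u hu => lp.ext (funext fun x => by
      simpa [lp.inner_single_left] using hu x)) h1)
  refine ⟨ι, b, fun i => ?_⟩
  obtain ⟨μ, hμ⟩ := hb i
  refine ⟨2 * (4 + h) * μ, ?_⟩
  rw [Complex.ofReal_mul, mul_smul, ← hμ, _root_.smul_apply, smul_smul, ← Complex.ofReal_mul,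
    mul_inv_cancel₀ (by positivity), Complex.ofReal_one, one_smul]

end Crest.Agent.N334.Soft
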