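import Mathlib

/-!
# Row 334 (helper52): totally bounded Chebyshev orbits give a basis of eigenvectors
-/

set_option autoImplicit false

open Filter Topology Module.End Finset
open scoped InnerProductSpace

namespace Crest.Agent.N334.Soft

variable {E : Type} [NormedAddCommGroup E] [InnerProductSpace ℂ E]

/-- the Chebyshev orbit `T_n(X) ψ` -/
noncomputable def ch (X : E →L[ℂ] E) (ψ : E) : ℕ → E
  | 0 => ψ
  | 1 => X ψ
  | n + 2 => (2 : ℂ) • X (ch X ψ (n + 1)) - ch X ψ n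

lemma ch_map {F : Type} [NormedAddCommGroup F] [InnerProductSpace ℂ F] {X : E →L[ℂ] E}
    {Y : F →L[ℂ] F} (T : E →L[ℂ] F) (h : ∀ a, T (X a) = Y (T a)) (ψ : E) :
    ∀ n, T (ch X ψ n) = ch Y (T ψ) n
  | 0 => rfl
  | 1 => h ψ
  | n + 2 => by simp only [ch, map_sub, map_smul, h, ch_map T h ψ n, ch_map T h ψ (n + 1)]

lemma ch_mem {X : E →L[ℂ] E} {V : Submodule ℂ E} (h : ∀ a ∈ V, X a ∈ V) {ψ : E} (hψ : ψ ∈ V) :
    ∀ n, ch X ψ n ∈ V
  | 0 => hψ
  | 1 => h ψ hψ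
  | n + 2 => V.sub_mem (V.smul_mem _ (h _ (ch_mem h hψ (n + 1)))) (ch_mem h hψ n)

variable {X : E →L[ℂ] E}

lemma X_ch (X : E →L[ℂ] E) (ψ : E) (n : ℕ) :
    X (ch X ψ (n + 1)) = (2 : ℂ)⁻¹ • (ch X ψ (n + 2) + ch X ψ n) := by
  simp [ch, smul_smul]

lemma ch_bounds (hX : (X : E →ₗ[ℂ] E).IsSymmetric) (h1 : ‖X‖ ≤ 1 / 2) (ψ : E) (n : ℕ) :
    ‖ψ‖ ^ 2 / 2 ≤ ‖ch X ψ n‖ ^ 2 + ‖ch X ψ (n + 1)‖ ^ 2 ∧ ‖ch X ψ n‖ ≤ 2 * ‖ψ‖ := by
  have hs : ∀ a b : E, ⟪X a, b⟫_ℂ = ⟪a, X b⟫_ℂ := hX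
  have hn : ∀ a : E, (⟪a, a⟫_ℂ).re = ‖a‖ ^ 2 := fun a => inner_self_eq_norm_sq (𝕜 := ℂ) a
  have hb : ∀ a : E, ‖X a‖ ≤ ‖a‖ / 2 := fun a =>
    (X.le_opNorm a).trans (by nlinarith [norm_nonneg a])
  have key : ∀ n, ‖ch X ψ n‖ ^ 2 + ‖ch X ψ (n + 1)‖ ^ 2 -
      2 * (⟪ch X ψ n, X (ch X ψ (n + 1))⟫_ℂ).re = ‖ψ‖ ^ 2 - ‖X ψ‖ ^ 2 := by
    intro n
    induction n with
    | zero =>
      change ‖ψ‖ ^ 2 + ‖X ψ‖ ^ 2 - 2 * (⟪ψ, X (X ψ)⟫_ℂ).re = _
      rw [← hs, hn]; ring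
    | succ n ih =>
      rw [← hs, X_ch]
      rw [X_ch] at ih
      simp only [inner_smul_left, inner_smul_right, inner_add_left, inner_add_right] at ih ⊢
      have e1 : ∀ z : ℂ, ((2 : ℂ)⁻¹ * z).re = z.re / 2 := fun z => by
        rw [show (2 : ℂ)⁻¹ = ((2⁻¹ : ℝ) : ℂ) by push_cast; rfl, Complex.re_ofReal_mul]; ring
      rw [map_inv₀, map_ofNat, e1, Complex.add_re, hn]
      rw [e1, Complex.add_re, hn] at ih
      linarith
  have h2 := key n
  have h3 : |(⟪ch X ψ n, X (ch X ψ (n + 1))⟫_ℂ).re| ≤ ‖ch X ψ n‖ * (‖ch X ψ (n + 1)‖ / 2) :=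
    ((Complex.abs_re_le_norm _).trans (norm_inner_le_norm _ _)).trans
      (mul_le_mul_of_nonneg_left (hb _) (norm_nonneg _))
  have h4 := pow_le_pow_left₀ (norm_nonneg _) (hb ψ) 2
  refine ⟨?_, (pow_le_pow_iff_left₀ (norm_nonneg _) (by positivity) two_ne_zero).1 ?_⟩ <;>
    nlinarith [abs_le.1 h3, sq_nonneg (‖ch X ψ n‖ - ‖ch X ψ (n + 1)‖), sq_nonneg ‖X ψ‖,
      sq_nonneg ‖ch X ψ (n + 1)‖, sq_nonneg ‖ψ‖]

lemma ch_lower (hX : (X : E →ₗ[ℂ] E).IsSymmetric) (h1 : ‖X‖ ≤ 1 / 2) (ψ : E) (n : ℕ) :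
    ‖ψ‖ ^ 2 / 2 ≤ ‖ch X ψ n‖ ^ 2 + ‖ch X ψ (n + 1)‖ ^ 2 := (ch_bounds hX h1 ψ n).1

/-- Cesàro average of the rank one projections on the orbit -/
noncomputable def KN (c : ℕ → E) (N : ℕ) (b : E) : E :=
  ((N + 2 : ℕ) : ℝ)⁻¹ • ∑ n ∈ range (N + 2), ⟪c (n + 1), b⟫_ℂ • c (n + 1)

variable [CompleteSpace E]

lemma exists_compact {c : ℕ → E} (hc : TotallyBounded (Set.range c)) (r : ℝ) :
    ∃ D : Set E, IsCompact D ∧ ∀ b, (∀ n, ‖⟪c n, b⟫_ℂ‖ ≤ r) → ∀ N, KN c N b ∈ D := by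
  let S : Set E := (fun p : ℂ × E => p.1 • p.2) '' (Metric.closedBall 0 r ×ˢ closure (Set.range c))
  have hS : IsCompact S := ((isCompact_closedBall _ _).prod
    (hc.closure.isCompact_of_isClosed isClosed_closure)).image (by fun_prop)
  refine ⟨closure (convexHull ℝ S), hS.totallyBounded.convexHull.closure.isCompact_of_isClosed
    isClosed_closure, fun b hb N => subset_closure ?_⟩
  rw [KN, smul_sum]
  refine (convex_convexHull ℝ S).sum_mem (fun _ _ => by positivity) ?_ fun n _ =>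
    subset_convexHull ℝ S ⟨(_, _), ⟨mem_closedBall_zero_iff.2 (hb _),
      subset_closure ⟨_, rfl⟩⟩, rfl⟩
  rw [sum_const, card_range, nsmul_eq_mul, mul_inv_cancel₀ (by positivity)]

lemma exists_limit {c : ℕ → E} (hc : TotallyBounded (Set.range c)) :
    ∃ K : E →L[ℂ] E, IsCompactOperator K ∧
      ∀ b, Tendsto (fun N => KN c N b) (hyperfilter ℕ) (𝓝 (K b)) := by
  obtain ⟨M, hM⟩ := hc.isBounded.exists_norm_le
  have hM' : ∀ n, ‖c n‖ ≤ M := fun n => hM _ ⟨n, rfl⟩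
  have hM0 : 0 ≤ M := (norm_nonneg _).trans (hM' 0)
  have hi : ∀ n b, ‖⟪c n, b⟫_ℂ‖ ≤ M * ‖b‖ := fun n b =>
    (norm_inner_le_norm _ _).trans (mul_le_mul_of_nonneg_right (hM' n) (norm_nonneg _))
  have h1 : ∀ b, ∃ y, Tendsto (fun N => KN c N b) (hyperfilter ℕ) (𝓝 y) := fun b => by
    obtain ⟨D, hD, h⟩ := exists_compact hc (M * ‖b‖)
    obtain ⟨y, -, hy⟩ := hD.ultrafilter_le_nhds ((hyperfilter ℕ).map fun N => KN c N b)
      (le_principal_iff.2 (mem_map.2 (univ_mem' fun N => h b (fun n => hi n b) N)))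
    exact ⟨y, hy⟩
  choose K hK using h1
  let L : E →ₗ[ℂ] E :=
    { toFun := K
      map_add' := fun a b => tendsto_nhds_unique (hK _) (((hK a).add (hK b)).congr fun N => by
        simp only [KN, inner_add_right, add_smul, sum_add_distrib, smul_add])
      map_smul' := fun z a => tendsto_nhds_unique (hK _) (((hK a).const_smul z).congr fun N => by
        simp only [KN, inner_smul_right, mul_smul, ← smul_sum]
        exact smul_comm _ _ _) }
  have h2 : ∀ b, ‖L b‖ ≤ M * M * ‖b‖ := fun b => by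
    refine le_of_tendsto' (hK b).norm fun N => ?_
    rw [KN, norm_smul, norm_inv, Real.norm_natCast, inv_mul_le_iff₀ (by positivity)]
    refine (norm_sum_le _ _).trans ((sum_le_card_nsmul _ _ (M * M * ‖b‖) fun n _ => ?_).trans
      (by rw [card_range, nsmul_eq_mul]))
    rw [norm_smul]
    nlinarith [mul_le_mul (hi (n + 1) b) (hM' (n + 1)) (norm_nonneg _) (by positivity)]
  refine ⟨L.mkContinuous _ h2, ?_, hK⟩
  obtain ⟨D, hD, h⟩ := exists_compact hc M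
  refine ⟨D, hD, mem_of_superset (Metric.closedBall_mem_nhds 0 one_pos) fun b hb => ?_⟩
  refine hD.isClosed.mem_of_tendsto (hK b) (Eventually.of_forall (h b fun n => (hi n b).trans ?_))
  exact mul_le_of_le_one_right hM0 (mem_closedBall_zero_iff.1 hb)

theorem eq_zero_of_orbit (hX : (X : E →ₗ[ℂ] E).IsSymmetric) (h1 : ‖X‖ ≤ 1 / 2) {ψ : E}
    (hψ : ψ ∈ (⨆ μ, eigenspace (X : Module.End ℂ E) μ)ᗮ)
    (hc : TotallyBounded (Set.range (ch X ψ))) : ψ = 0 := by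
  have hs : ∀ a b : E, ⟪X a, b⟫_ℂ = ⟪a, X b⟫_ℂ := hX
  set c := ch X ψ with hcd
  obtain ⟨K, hK, hl⟩ := exists_limit hc
  obtain ⟨M, hM⟩ := hc.isBounded.exists_norm_le
  have hM' : ∀ n, ‖c n‖ ≤ M := fun n => hM _ ⟨n, rfl⟩
  have hsym : (K : E →ₗ[ℂ] E).IsSymmetric := fun a b =>
    tendsto_nhds_unique ((hl a).inner tendsto_const_nhds)
      ((tendsto_const_nhds.inner (hl b)).congr fun N => by
        simp only [KN, ← Complex.coe_smul, inner_smul_left, inner_smul_right, sum_inner, inner_sum,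
          Complex.conj_ofReal, inner_conj_symm, mul_comm])
  have hV : ∀ b, K b ∈ (⨆ μ, eigenspace (X : Module.End ℂ E) μ)ᗮ := fun b =>
    (Submodule.isClosed_orthogonal _).mem_of_tendsto (hl b) (Eventually.of_forall fun N =>
      Submodule.smul_of_tower_mem _ _ (Submodule.sum_mem _ fun n _ => Submodule.smul_mem _ _
        (ch_mem hX.orthogonalComplement_iSup_eigenspaces_invariant hψ _)))
  have hcomm : ∀ b, X (K b) = K (X b) := fun b => by
    let α : ℕ → E := fun n => ⟪c n, b⟫_ℂ • c (n + 1) - ⟪c (n + 1), b⟫_ℂ • c n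
    have hα : ∀ n, ‖α n‖ ≤ 2 * (M * ‖b‖ * M) := fun n => by
      have h2 : ∀ m m', ‖⟪c m, b⟫_ℂ • c m'‖ ≤ M * ‖b‖ * M := fun m m' => by
        rw [norm_smul]
        exact mul_le_mul ((norm_inner_le_norm _ _).trans (mul_le_mul_of_nonneg_right (hM' m)
          (norm_nonneg _))) (hM' m') (norm_nonneg _)
          (mul_nonneg ((norm_nonneg _).trans (hM' 0)) (norm_nonneg _))
      linarith [norm_sub_le (⟪c n, b⟫_ℂ • c (n + 1)) (⟪c (n + 1), b⟫_ℂ • c n), h2 n (n + 1),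
        h2 (n + 1) n]
    have h2 : ∀ N, X (KN c N b) - KN c N (X b) =
        ((N + 2 : ℕ) : ℝ)⁻¹ • (2 : ℂ)⁻¹ • (α (N + 2) - α 0) := fun N => by
      rw [← sum_range_sub α, smul_sum, KN, KN, X.map_smul_of_tower, ← smul_sub, map_sum,
        ← sum_sub_distrib]
      refine congrArg _ (sum_congr rfl fun n _ => ?_)
      rw [map_smul, ← hs, hcd, X_ch, ← hcd, inner_smul_left, inner_add_left, map_inv₀, map_ofNat]
      simp only [α]
      module
    have h3 : Tendsto (fun N => X (KN c N b) - KN c N (X b)) atTop (𝓝 0) := by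
      refine squeeze_zero_norm (a := fun N : ℕ => 2 * (M * ‖b‖ * M) / ((N + 2 : ℕ) : ℝ))
        (fun N => ?_) ((tendsto_const_div_atTop_nhds_zero_nat _).comp (tendsto_add_atTop_nat 2))
      rw [h2, norm_smul, norm_smul, norm_inv, norm_inv, Real.norm_natCast, Complex.norm_ofNat,
        div_eq_inv_mul]
      refine mul_le_mul_of_nonneg_left ?_ (by positivity)
      linarith [norm_sub_le (α (N + 2)) (α 0), hα (N + 2), hα 0]
    exact sub_eq_zero.1 (tendsto_nhds_unique (((X.continuous.tendsto _).comp (hl b)).sub (hl (X b)))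
      (h3.mono_left (hyperfilter_le_cofinite.trans Nat.cofinite_eq_atTop.le)))
  have hK0 : K = 0 := by
    rw [← K.eq_zero_of_forall_hasEigenvalue_eq_zero hK hsym]
    intro μ hμ
    by_contra hμ0
    have := K.finite_dimensional_eigenspace hK μ hμ0
    have hnt : Nontrivial (eigenspace (K : Module.End ℂ E) μ) :=
      Submodule.nontrivial_iff_ne_bot.2 hμ
    have hinv : ∀ a ∈ eigenspace (K : Module.End ℂ E) μ,
        (X : Module.End ℂ E) a ∈ eigenspace (K : Module.End ℂ E) μ := fun a ha => by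
      rw [mem_eigenspace_iff] at ha ⊢
      change K (X a) = μ • X a
      rw [← hcomm, ← map_smul, ← ha]; rfl
    obtain ⟨ν, hν⟩ := exists_eigenvalue ((X : Module.End ℂ E).restrict hinv)
    obtain ⟨u, hu⟩ := hν.exists_hasEigenvector
    have h2 : (u : E) ∈ ⨆ μ, eigenspace (X : Module.End ℂ E) μ :=
      Submodule.mem_iSup_of_mem ν (mem_eigenspace_iff.2 (congrArg Subtype.val hu.apply_eq_smul))
    have h3 := Submodule.inner_right_of_mem_orthogonal h2 (hV u)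
    have h4 : K u = μ • (u : E) := mem_eigenspace_iff.1 u.2
    rw [h4, inner_smul_right, mul_eq_zero, inner_self_eq_zero] at h3
    exact hu.2 (Subtype.ext (h3.resolve_left hμ0))
  by_contra h0
  have hδ : 0 < ‖ψ‖ / 4 := by positivity
  set δ := ‖ψ‖ / 4 with hδd
  obtain ⟨t, ht, hcov⟩ := Metric.totallyBounded_iff.1 hc δ hδ
  let F : ℕ → ℝ := fun n => ∑ y ∈ ht.toFinset, ‖⟪c n, y⟫_ℂ‖ ^ 2
  have hF0 : ∀ n, 0 ≤ F n := fun n => sum_nonneg fun _ _ => sq_nonneg _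
  have hF1 : ∀ n, 2 * δ ≤ ‖c n‖ → 4 * δ ^ 4 ≤ F n := fun n hn => by
    obtain ⟨y, hy, hy'⟩ := Set.mem_iUnion₂.1 (hcov ⟨n, rfl⟩)
    refine le_trans ?_ (single_le_sum (f := fun y => ‖⟪c n, y⟫_ℂ‖ ^ 2) (fun _ _ => sq_nonneg _)
      (ht.mem_toFinset.2 hy))
    have e1 : ‖c n‖ ^ 2 ≤ ‖⟪c n, y⟫_ℂ‖ + ‖c n‖ * δ := by
      have e2 := norm_add_le ⟪c n, y⟫_ℂ ⟪c n, c n - y⟫_ℂ
      rw [← inner_add_right, add_sub_cancel, inner_self_eq_norm_sq_to_K, norm_pow] at e2
      have e3 := (norm_inner_le_norm (𝕜 := ℂ) (c n) (c n - y)).trans (mul_le_mul_of_nonneg_left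
        (mem_ball_iff_norm.1 hy').le (norm_nonneg _))
      simp only [RCLike.norm_ofReal, abs_norm] at e2
      linarith
    have e2 : 2 * δ ^ 2 ≤ ‖⟪c n, y⟫_ℂ‖ := by nlinarith
    nlinarith [pow_le_pow_left₀ (by positivity) e2 2]
  have hF2 : ∀ n, 4 * δ ^ 4 ≤ F n + F (n + 1) := fun n => by
    have e1 := ch_lower hX h1 ψ n
    rw [← hcd] at e1
    by_cases e2 : 2 * δ ≤ ‖c n‖
    · linarith [hF1 n e2, hF0 (n + 1)]
    · have e3 : 2 * δ ≤ ‖c (n + 1)‖ := by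
        refine (pow_le_pow_iff_left₀ (by positivity) (norm_nonneg _) two_ne_zero).1 ?_
        have e4 : ‖ψ‖ = 4 * δ := by rw [hδd]; ring
        rw [e4] at e1
        nlinarith [norm_nonneg (c n), not_le.1 e2]
      linarith [hF1 _ e3, hF0 n]
  have hlim : Tendsto (fun N => ∑ y ∈ ht.toFinset, (⟪y, KN c N y⟫_ℂ).re) (hyperfilter ℕ)
      (𝓝 (∑ y ∈ ht.toFinset, (⟪y, K y⟫_ℂ).re)) :=
    tendsto_finsetSum _ fun y _ =>
      (Complex.continuous_re.tendsto _).comp (tendsto_const_nhds.inner (hl y))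
  have hlow := ge_of_tendsto' hlim (b := δ ^ 4) fun N => by
    have e1 : ∑ y ∈ ht.toFinset, (⟪y, KN c N y⟫_ℂ).re =
        ((N + 2 : ℕ) : ℝ)⁻¹ * ∑ n ∈ range (N + 2), F (n + 1) := by
      simp only [KN, ← Complex.coe_smul, inner_smul_right, inner_sum, Complex.re_ofReal_mul,
        Complex.re_sum, F, ← mul_sum]
      rw [sum_comm]
      refine congrArg _ (sum_congr rfl fun n _ => sum_congr rfl fun y _ => ?_)
      rw [← inner_conj_symm y, Complex.mul_conj, Complex.ofReal_re, Complex.normSq_eq_norm_sq]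
    have e2 : (N + 1) * (4 * δ ^ 4) ≤ ∑ n ∈ range (N + 1), (F (n + 1) + F (n + 2)) := by
      simpa using card_nsmul_le_sum (range (N + 1)) _ _ fun n _ => hF2 (n + 1)
    have e3 := sum_range_succ (fun n => F (n + 1)) (N + 1)
    have e4 := sum_range_succ' (fun n => F (n + 1)) (N + 1)
    rw [sum_add_distrib] at e2
    rw [e1, le_inv_mul_iff₀ (by positivity)]
    push_cast
    nlinarith [hF0 (N + 1 + 1), hF0 (0 + 1), pow_pos hδ 4, (Nat.cast_nonneg N : (0 : ℝ) ≤ N)]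
  rw [hK0] at hlow
  simp only [zero_apply, inner_zero_right, Complex.zero_re,
    sum_const_zero] at hlow
  exact absurd hlow (not_le.2 (pow_pos hδ 4))

theorem orth_eq_bot (hX : (X : E →ₗ[ℂ] E).IsSymmetric) (h1 : ‖X‖ ≤ 1 / 2) {α : Type} (e : α → E)
    (he : ∀ u, (∀ i, ⟪e i, u⟫_ℂ = 0) → u = 0)
    (hc : ∀ i, TotallyBounded (Set.range (ch X (e i)))) :
    (⨆ μ, eigenspace (X : Module.End ℂ E) μ)ᗮ = ⊥ := by
  have hs : ∀ a b : E, ⟪X a, b⟫_ℂ = ⟪a, X b⟫_ℂ := hX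
  set V := (⨆ μ, eigenspace (X : Module.End ℂ E) μ)ᗮ with hV
  have hinv : ∀ a ∈ V, X a ∈ V := hX.orthogonalComplement_iSup_eigenspaces_invariant
  have hP : ∀ a, V.starProjection (X a) = X (V.starProjection a) := fun a =>
    Submodule.eq_starProjection_of_mem_of_inner_eq_zero (hinv _ (V.starProjection_apply_mem a))
      fun w hw => by
        rw [← map_sub, hs]
        exact Submodule.starProjection_inner_eq_zero a _ (hinv w hw)
  refine (Submodule.eq_bot_iff _).2 fun u hu => he u fun i => ?_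
  have h2 : V.starProjection (e i) = 0 := by
    refine eq_zero_of_orbit hX h1 (V.starProjection_apply_mem _) ?_
    have := (hc i).image V.starProjection.uniformContinuous
    rw [← Set.range_comp] at this
    convert this using 2
    exact funext fun n => (ch_map _ hP _ n).symm
  have := Submodule.starProjection_inner_eq_zero (K := V) (e i) u hu
  rwa [h2, sub_zero] at this

theorem exists_eigenbasis (hX : (X : E →ₗ[ℂ] E).IsSymmetric)
    (h : (⨆ μ, eigenspace (X : Module.End ℂ E) μ)ᗮ = ⊥) :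
    ∃ (ι : Type) (b : HilbertBasis ι ℂ E), ∀ i, ∃ μ : ℝ, X (b i) = (μ : ℂ) • b i := by
  have hc : ∀ μ, CompleteSpace (eigenspace (X : Module.End ℂ E) μ) := fun μ => by
    have : (eigenspace (X : Module.End ℂ E) μ : Set E) = {a | X a = μ • a} :=
      Set.ext fun a => mem_eigenspace_iff
    exact IsClosed.completeSpace_coe (hs := this ▸ isClosed_eq X.continuous (by fun_prop))
  choose w b hb using fun μ => exists_hilbertBasis ℂ (eigenspace (X : Module.End ℂ E) μ)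
  let v : (Σ μ, w μ) → E := fun i => b i.1 i.2
  have hv : Orthonormal ℂ v :=
    hX.orthogonalFamily_eigenspaces.orthonormal_sigma_orthonormal fun μ => (b μ).orthonormal
  refine ⟨_, HilbertBasis.mkOfOrthogonalEqBot hv ?_, fun i => ?_⟩
  · refine (Submodule.eq_bot_iff _).2 fun u hu => (Submodule.eq_bot_iff _).1 h u ?_
    rw [← Submodule.iInf_orthogonal, Submodule.mem_iInf]
    intro μ a ha
    have h1 := ((innerSL ℂ u).comp (Submodule.subtypeL _)).hasSum ((b μ).hasSum_repr ⟨a, ha⟩)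
    have h2 : ∀ j, ⟪u, (b μ j : E)⟫_ℂ = 0 := fun j => Submodule.inner_left_of_mem_orthogonal
      (Submodule.subset_span (Set.mem_range_self (f := v) ⟨μ, j⟩)) hu
    simp only [ContinuousLinearMap.comp_apply, map_smul, Submodule.subtypeL_apply, innerSL_apply_apply,
      h2, smul_zero] at h1
    rw [inner_eq_zero_symm]
    exact h1.unique hasSum_zero
  · rw [HilbertBasis.coe_mkOfOrthogonalEqBot]
    have h1 : X (v i) = i.1 • v i := mem_eigenspace_iff.1 (b i.1 i.2).2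
    have h2 := hX.conj_eigenvalue_eq_self (μ := i.1) (hasEigenvalue_of_hasEigenvector
      ⟨(b i.1 i.2).2, hv.ne_zero i⟩)
    exact ⟨i.1.re, by rw [h1, Complex.conj_eq_iff_re.1 h2]⟩

end Crest.Agent.N334.Soft
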