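import Crest.Agent.N336.Q.Spec

/-!
# Row 334 (helper52): finite-volume Simon-Wolff (spectral averaging in one potential)
-/

set_option autoImplicit false
set_option linter.unusedSectionVars false

open Matrix Finset MeasureTheory Filter Topology
open scoped ComplexOrder MatrixOrder Matrix.Norms.L2Operator InnerProductSpace ENNReal

namespace Crest.Agent.N334.Soft

open Crest.Agent.N336.Q

variable {n : Type} [Fintype n] [DecidableEq n]

/-- rank one perturbation at the site `o` -/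
noncomputable def Hv (H : Matrix n n ℂ) (o : n) (v : ℝ) : Matrix n n ℂ :=
  H + diagonal (Pi.single o (v : ℂ))

lemma Hv_herm {H : Matrix n n ℂ} (hH : H.IsHermitian) (o : n) (v : ℝ) : (Hv H o v).IsHermitian := by
  refine hH.add (isHermitian_diagonal_of_self_adjoint _ (funext fun i => ?_))
  simp only [Pi.star_apply, Pi.single_apply]
  split_ifs <;> simp

/-- spectral weight -/
noncomputable def wt (H : Matrix n n ℂ) (o i : n) : ℝ := ‖evec H i o‖ ^ 2

lemma wt_nonneg (H : Matrix n n ℂ) (o i : n) : 0 ≤ wt H o i := sq_nonneg _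

lemma fc_apply (f : ℝ → ℂ) (H : Matrix n n ℂ) (y o : n) :
    fc f H y o = ∑ i, f (ev H i) * (evec H i y * star (evec H i o)) := by
  simp [fc_eq_sum, Matrix.sum_apply, kb_apply]

lemma fc_diag (f : ℝ → ℂ) (H : Matrix n n ℂ) (o : n) :
    fc f H o o = ∑ i, f (ev H i) * (wt H o i : ℂ) := by
  simp [fc_apply, wt, Complex.mul_conj']

lemma sum_wt (H : Matrix n n ℂ) (o : n) : ∑ i, wt H o i = 1 := by
  have := fc_diag (fun _ => 1) H o
  rw [fc_one, one_apply_eq] at this
  simp only [one_mul] at this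
  exact_mod_cast this.symm

/-- diagonal Green function -/
noncomputable def gz (H : Matrix n n ℂ) (o : n) (z : ℂ) : ℂ :=
  ∑ i, ((ev H i : ℂ) - z)⁻¹ * (wt H o i : ℂ)

lemma im_gz (H : Matrix n n ℂ) (o : n) (z : ℂ) :
    (gz H o z).im = ∑ i, z.im / ((ev H i - z.re) ^ 2 + z.im ^ 2) * wt H o i := by
  rw [gz, Complex.im_sum]
  refine sum_congr rfl fun i _ => ?_
  rw [Complex.im_mul_ofReal, Complex.inv_im, Complex.normSq_apply]
  simp [sq]

lemma im_gz_pos (H : Matrix n n ℂ) (o : n) {z : ℂ} (hz : 0 < z.im) : 0 < (gz H o z).im := by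
  rw [im_gz]
  obtain ⟨i, -, hi⟩ := exists_ne_zero_of_sum_ne_zero (s := univ) (f := wt H o)
    (by rw [sum_wt]; exact one_ne_zero)
  refine sum_pos' (fun j _ => mul_nonneg (by positivity) (wt_nonneg _ _ _)) ⟨i, mem_univ _, ?_⟩
  exact mul_pos (by positivity) ((wt_nonneg _ _ _).lt_of_ne' hi)

lemma gz_Hv {H : Matrix n n ℂ} (hH : H.IsHermitian) (o : n) (v : ℝ) {z : ℂ} (hz : 0 < z.im) :
    gz (Hv H o v) o z = ((v : ℂ) + (gz H o z)⁻¹)⁻¹ := by
  have key : ∀ {A : Matrix n n ℂ}, A.IsHermitian →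
      (A - z • 1) * fc (fun x => ((x : ℂ) - z)⁻¹) A = 1 ∧
      fc (fun x => ((x : ℂ) - z)⁻¹) A * (A - z • 1) = 1 := by
    intro A hA
    have h0 : ∀ x : ℝ, (x : ℂ) - z ≠ 0 := fun x h => by
      have := congrArg Complex.im h
      simp only [Complex.sub_im, Complex.ofReal_im, Complex.zero_im] at this
      linarith
    have e : A - z • 1 = fc (fun x => (x : ℂ) - z) A := by rw [← fc_sub, fc_id hA, fc_const]
    rw [e, fc_mul, fc_mul, ← fc_one A]
    exact ⟨fc_congr fun i => mul_inv_cancel₀ (h0 _), fc_congr fun i => inv_mul_cancel₀ (h0 _)⟩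
  set G := fc (fun x => ((x : ℂ) - z)⁻¹) H
  set G' := fc (fun x => ((x : ℂ) - z)⁻¹) (Hv H o v)
  have h1 : G = G' + G * diagonal (Pi.single o (v : ℂ)) * G' := by
    have e : Hv H o v - z • 1 = (H - z • 1) + diagonal (Pi.single o (v : ℂ)) := by rw [Hv]; abel
    calc G = G * ((Hv H o v - z • 1) * G') := by rw [(key (Hv_herm hH o v)).1, Matrix.mul_one]
      _ = _ := by
        rw [e, Matrix.add_mul, Matrix.mul_add, ← Matrix.mul_assoc, (key hH).2, Matrix.one_mul,
          Matrix.mul_assoc]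
  have h2 := congrFun (congrFun h1 o) o
  have h3 : (G * diagonal (Pi.single o (v : ℂ)) * G') o o = G o o * v * G' o o := by
    rw [mul_apply, sum_eq_single o] <;> simp +contextual
  have e1 : G o o = gz H o z := fc_diag _ _ _
  have e2 : G' o o = gz (Hv H o v) o z := fc_diag _ _ _
  rw [Matrix.add_apply, h3, e1, e2] at h2
  have h4 : gz H o z ≠ 0 := fun h => by simpa [h] using im_gz_pos H o hz
  refine eq_inv_of_mul_eq_one_left ?_
  field_simp
  linear_combination -h2

lemma lintegral_im_inv {g : ℂ} (hg : 0 < g.im) :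
    ∫⁻ v : ℝ, ENNReal.ofReal (((v : ℂ) + g⁻¹)⁻¹).im = ENNReal.ofReal Real.pi := by
  have h0 : g ≠ 0 := fun h => by simp [h] at hg
  have h1 : 0 < -(g⁻¹).im := by
    rw [Complex.inv_im, neg_div, neg_neg]; exact div_pos hg (Complex.normSq_pos.2 h0)
  have h2 := ProbabilityTheory.lintegral_cauchyPDF_eq_one (-(g⁻¹).re) (γ := NNReal.mk _ h1.le)
    (fun h => h1.ne' (congrArg NNReal.toReal h))
  rw [← mul_one (ENNReal.ofReal Real.pi), ← h2, ← lintegral_const_mul' _ _ ENNReal.ofReal_ne_top]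
  refine lintegral_congr fun v => ?_
  rw [ProbabilityTheory.cauchyPDF_def, ← ENNReal.ofReal_mul Real.pi_pos.le,
    ProbabilityTheory.cauchyPDFReal_def]
  congr 1
  rw [NNReal.coe_mk]
  generalize g⁻¹ = w
  rw [Complex.inv_im, Complex.normSq_apply]
  simp only [Complex.add_im, Complex.ofReal_im, zero_add, Complex.add_re, Complex.ofReal_re]
  field_simp
  ring

open Classical in
/-- spectral mass of the set `B` -/
noncomputable def mass (H : Matrix n n ℂ) (o : n) (B : Set ℝ) : ℝ :=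
  ∑ i, if ev H i ∈ B then wt H o i else 0

lemma mass_le_eventually (H : Matrix n n ℂ) (o : n) {U : Set ℝ} (hU : IsOpen U) :
    ∀ᶠ j : ℕ in atTop, ENNReal.ofReal (mass H o U) ≤
      ∫⁻ E in U, ENNReal.ofReal (gz H o (E + (1 / ((j : ℝ) + 1) : ℝ) * Complex.I)).im := by
  have h1 : ∀ i, ∀ᶠ j : ℕ in atTop, ev H i ∈ U → Metric.closedBall (ev H i) (1 / ((j : ℝ) + 1)) ⊆ U := by
    intro i
    by_cases h : ev H i ∈ U
    · obtain ⟨r, hr, h2⟩ := Metric.isOpen_iff.1 hU _ h
      filter_upwards [tendsto_one_div_add_atTop_nhds_zero_nat.eventually (gt_mem_nhds hr)] with j hj _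
      exact (Metric.closedBall_subset_ball hj).trans h2
    · exact Eventually.of_forall fun _ h' => absurd h' h
  filter_upwards [eventually_all.2 h1] with j hj
  have hη : 0 < 1 / ((j : ℝ) + 1) := by positivity
  generalize 1 / ((j : ℝ) + 1) = η at hη hj
  have h2 : ∀ E : ℝ, ENNReal.ofReal (gz H o (E + η * Complex.I)).im =
      ∑ i, ENNReal.ofReal (η / ((ev H i - E) ^ 2 + η ^ 2) * wt H o i) := fun E => by
    rw [im_gz, ENNReal.ofReal_sum_of_nonneg fun i _ => mul_nonneg (by simp; positivity)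
      (wt_nonneg _ _ _)]
    simp
  simp only [h2]
  rw [lintegral_finsetSum _ fun i _ => by fun_prop, mass,
    ENNReal.ofReal_sum_of_nonneg fun i _ => by split_ifs; exacts [wt_nonneg _ _ _, le_rfl]]
  refine sum_le_sum fun i _ => ?_
  split_ifs with h
  · refine le_trans ?_ (lintegral_mono_set (hj i h))
    refine le_trans (le_of_eq ?_) (setLIntegral_mono' (f := fun _ =>
      ENNReal.ofReal (1 / (2 * η) * wt H o i)) measurableSet_closedBall fun E hE => ?_)
    · rw [setLIntegral_const, Real.volume_closedBall,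
        ← ENNReal.ofReal_mul (mul_nonneg (by positivity) (wt_nonneg _ _ _))]
      congr 1; field_simp
    · refine ENNReal.ofReal_le_ofReal (mul_le_mul_of_nonneg_right ?_ (wt_nonneg _ _ _))
      have := abs_le.1 (mem_closedBall_iff_norm'.1 hE)
      rw [div_le_div_iff₀ (by positivity) (by positivity)]
      nlinarith
  · simp

/-- spectral averaging -/
theorem spectral_avg {H : Matrix n n ℂ} (hH : H.IsHermitian) (o : n) (B : Set ℝ) {b : ℝ}
    (hb : 0 < b) :
    volume {v : ℝ | b ≤ mass (Hv H o v) o B} ≤ ENNReal.ofReal (Real.pi / b) * volume B := by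
  rw [Set.measure_eq_iInf_isOpen B]
  simp only [ENNReal.mul_iInf_of_ne (ENNReal.ofReal_pos.2 (div_pos Real.pi_pos hb)).ne'
    ENNReal.ofReal_ne_top]
  refine le_iInf fun U => le_iInf fun hBU => le_iInf fun hU => ?_
  let P : ℕ → ℝ → ℝ → ℝ≥0∞ := fun j v E => ENNReal.ofReal
    (((v : ℂ) + (gz H o (E + (1 / ((j : ℝ) + 1) : ℝ) * Complex.I))⁻¹)⁻¹).im
  have hP : ∀ j, Measurable (Function.uncurry (P j)) := fun j => by
    simp only [P, gz, Function.uncurry_def]; fun_prop
  have hz : ∀ (j : ℕ) (E : ℝ), 0 < ((E : ℂ) + (1 / ((j : ℝ) + 1) : ℝ) * Complex.I).im :=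
    fun j E => by
      simp only [Complex.add_im, Complex.ofReal_im, Complex.mul_im, Complex.ofReal_re,
        Complex.I_im, Complex.I_re]
      positivity
  have hm : ∀ j, Measurable fun v => ∫⁻ E in U, P j v E := fun j => (hP j).lintegral_prod_right'
  have h1 : {v : ℝ | b ≤ mass (Hv H o v) o B} ⊆
      {v | ENNReal.ofReal b ≤ liminf (fun j => ∫⁻ E in U, P j v E) atTop} := fun v hv => by
    refine le_liminf_of_le (u := fun j => ∫⁻ E in U, P j v E) (by isBoundedDefault)
      ((mass_le_eventually (Hv H o v) o hU).mono fun j hj => ?_)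
    simp only [gz_Hv hH o v (hz j _)] at hj
    refine (ENNReal.ofReal_le_ofReal (le_trans hv (sum_le_sum fun i _ => ?_))).trans hj
    by_cases h : ev (Hv H o v) i ∈ B
    · rw [if_pos h, if_pos (hBU h)]
    · rw [if_neg h]; split_ifs; exacts [wt_nonneg _ _ _, le_rfl]
  refine (measure_mono h1).trans ((meas_ge_le_lintegral_div (Measurable.liminf hm).aemeasurable
    (ENNReal.ofReal_pos.2 hb).ne' ENNReal.ofReal_ne_top).trans ?_)
  rw [ENNReal.ofReal_div_of_pos hb, ENNReal.div_eq_inv_mul, ENNReal.div_eq_inv_mul, mul_assoc]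
  gcongr
  refine (lintegral_liminf_le hm).trans (liminf_le_of_frequently_le' (Frequently.of_forall
    fun j => le_of_eq ?_))
  rw [lintegral_lintegral_swap (hP j).aemeasurable]
  simp only [P, lintegral_im_inv (im_gz_pos H o (hz j _)), setLIntegral_const]

/-- norm of the part of a vector on `F` -/
noncomputable def tl (F : Finset n) (x : n → ℂ) : ℝ :=
  ‖(WithLp.toLp 2 fun y : F => x y : EuclideanSpace ℂ F)‖

lemma tl_nonneg (F : Finset n) (x : n → ℂ) : 0 ≤ tl F x := norm_nonneg _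

lemma tl_sq (F : Finset n) (x : n → ℂ) : tl F x ^ 2 = ∑ y ∈ F, ‖x y‖ ^ 2 := by
  rw [tl, EuclideanSpace.norm_sq_eq, ← sum_coe_sort F]

lemma tl_add_le (F : Finset n) (x y : n → ℂ) : tl F (x + y) ≤ tl F x + tl F y :=
  norm_add_le (WithLp.toLp 2 fun i : F => x i : EuclideanSpace ℂ F) (WithLp.toLp 2 fun i : F => y i)

lemma tl_smul (F : Finset n) (c : ℂ) (x : n → ℂ) : tl F (c • x) = ‖c‖ * tl F x :=
  norm_smul c (WithLp.toLp 2 fun i : F => x i : EuclideanSpace ℂ F)

lemma tl_sum_le {α : Type*} (F : Finset n) (s : Finset α) (x : α → n → ℂ) :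
    tl F (∑ a ∈ s, x a) ≤ ∑ a ∈ s, tl F (x a) :=
  Finset.le_sum_of_subadditive (tl F) (norm_zero (E := EuclideanSpace ℂ F)).le (tl_add_le F) s x

/-- energies of eigenvectors with a heavy tail -/
def Bad (H : Matrix n n ℂ) (o : n) (F : Finset n) (h a : ℝ) : Set ℝ :=
  {E | ∃ v : ℝ, |v| ≤ h ∧ ∃ u : n → ℂ, Hv H o v *ᵥ u = (E : ℂ) • u ∧ a * ‖u o‖ < tl F u}

lemma tl_fc_le {H : Matrix n n ℂ} (hH : H.IsHermitian) (o : n) (F : Finset n) {h a v : ℝ}
    (ha : 0 ≤ a) (hv : |v| ≤ h) {f : ℝ → ℂ} (hf : ∀ i, ‖f (ev (Hv H o v) i)‖ ≤ 1) :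
    tl F (fun y => fc f (Hv H o v) y o) ≤ a + √(mass (Hv H o v) o (Bad H o F h a)) := by
  classical
  set A := Hv H o v with hA
  set B := Bad H o F h a with hB
  have h1 : (fun y => fc f A y o) = (∑ i, (if ev A i ∈ B then 0 else f (ev A i) *
      star (evec A i o)) • (evec A i).ofLp) + fun y => fc (B.indicator f) A y o := by
    funext y
    simp only [fc_apply, Pi.add_apply, Finset.sum_apply, Pi.smul_apply, smul_eq_mul,
      ← sum_add_distrib, Set.indicator_apply]
    exact sum_congr rfl fun i _ => by split_ifs <;> ring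
  rw [h1]
  refine (tl_add_le _ _ _).trans (add_le_add ((tl_sum_le _ _ _).trans ?_) ?_)
  · rw [← mul_one a, ← sum_wt A o, mul_sum]
    refine sum_le_sum fun i _ => ?_
    rw [tl_smul]
    split_ifs with hi
    · simpa using mul_nonneg ha (wt_nonneg _ _ _)
    · have h2 : tl F (evec A i).ofLp ≤ a * ‖evec A i o‖ := not_lt.1 fun h2 => hi
        ⟨v, hv, _, congrArg WithLp.ofLp (ap_evec (Hv_herm hH o v) i), h2⟩
      rw [norm_mul, norm_star, wt]
      nlinarith [mul_le_mul (mul_le_of_le_one_left (norm_nonneg (evec A i o)) (hf i)) h2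
        (tl_nonneg _ _) (norm_nonneg _)]
  · refine Real.le_sqrt_of_sq_le ?_
    have h2 := norm_ap_fc_sq (B.indicator f) A (EuclideanSpace.single o 1)
    rw [EuclideanSpace.norm_sq_eq] at h2
    simp only [ap_apply, PiLp.single_apply, mul_ite, mul_one, mul_zero, sum_ite_eq', mem_univ,
      if_true, EuclideanSpace.inner_single_right, one_mul, RCLike.norm_conj] at h2
    rw [tl_sq]
    refine (sum_le_univ_sum_of_nonneg fun _ => sq_nonneg _).trans (h2.trans_le ?_)
    refine sum_le_sum fun i _ => ?_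
    rw [Set.indicator_apply]
    split_ifs
    · exact mul_le_of_le_one_left (sq_nonneg _) (pow_le_one₀ (norm_nonneg _) (hf i))
    · simp

lemma volume_Bad_le {H : Matrix n n ℂ} (hH : H.IsHermitian) (o : n) (F : Finset n) {h a v M : ℝ}
    (hv : |v| ≤ h) (hM : ∀ v', |v'| ≤ h → ‖Hv H o v'‖ ≤ M) :
    volume (Bad H o F h (2 * h * a)) ≤ volume {E : ℝ | |E| ≤ M ∧
      a < tl F fun y => (Hv H o v - (E : ℂ) • 1)⁻¹ y o} := by
  have h0 : volume (Set.range (ev (Hv H o v))) = 0 := (Set.finite_range _).measure_zero _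
  rw [← measure_sdiff_null h0]
  refine measure_mono ?_
  rintro E ⟨⟨v', hv', u, hu, hlt⟩, hE⟩
  have hh : 0 ≤ h := (abs_nonneg _).trans hv
  have hu0 : 0 < ‖(WithLp.toLp 2 u : Vec n)‖ := norm_pos_iff.2 fun h1 => by
    have : u = 0 := congrArg WithLp.ofLp h1
    rw [this, ← zero_smul ℂ (0 : n → ℂ), tl_smul] at hlt
    simp at hlt
  constructor
  · have h1 := norm_ap_le (Hv H o v') (WithLp.toLp 2 u)
    have h2 : ap (Hv H o v') (WithLp.toLp 2 u) = (E : ℂ) • WithLp.toLp 2 u :=
      congrArg (WithLp.toLp 2) hu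
    rw [h2, norm_smul, Complex.norm_real, Real.norm_eq_abs] at h1
    exact (le_of_mul_le_mul_right h1 hu0).trans (hM v' hv')
  · set A := Hv H o v
    have h1 : fc (fun x => ((x : ℂ) - E)⁻¹) A * (A - (E : ℂ) • 1) = 1 := by
      have e : A - (E : ℂ) • 1 = fc (fun x => (x : ℂ) - E) A := by
        rw [← fc_sub, fc_id (Hv_herm hH o v), fc_const]
      rw [e, fc_mul, ← fc_one A]
      exact fc_congr fun i => inv_mul_cancel₀ fun h => hE ⟨i, by exact_mod_cast sub_eq_zero.1 h⟩
    have h2 : (A - (E : ℂ) • 1) *ᵥ u = Pi.single o (((v - v' : ℝ) : ℂ) * u o) := by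
      rw [sub_mulVec, smul_mulVec, one_mulVec, ← hu]
      funext y
      simp only [A, Hv, add_mulVec, Pi.sub_apply, Pi.add_apply, mulVec_diagonal, Pi.single_apply]
      split_ifs with hy
      · subst hy; push_cast; ring
      · simp
    have h3 : u = (((v - v' : ℝ) : ℂ) * u o) • fun y => (A - (E : ℂ) • 1)⁻¹ y o := by
      rw [inv_eq_left_inv h1]
      conv_lhs => rw [← one_mulVec u, ← h1, ← mulVec_mulVec, h2, mulVec_single]
      funext y; simp [mul_comm]
    rw [h3, tl_smul, ← h3, norm_mul, Complex.norm_real, Real.norm_eq_abs] at hlt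
    by_contra h4
    have h5 : |v - v'| ≤ 2 * h := (abs_sub _ _).trans (by linarith)
    have := mul_le_mul (mul_le_mul_of_nonneg_right h5 (norm_nonneg (u o))) (not_lt.1 h4)
      (tl_nonneg _ _) (by positivity)
    nlinarith

end Crest.Agent.N334.Soft
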