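import Crest.Prelude.Def_AndersonOp

/-!
# Row 334 (helper52): Weyl sequences for the Anderson model (any dimension, any hopping)
-/

set_option autoImplicit false

open Finset MeasureTheory Filter Topology
open scoped ENNReal

namespace Crest.Agent.N334.Soft

open Crest.MathPhysics.Anderson

variable {d : ℕ}

lemma translate_apply (a : Fin d → ℤ) (u : Ell2 d) (x : Fin d → ℤ) :
    translate d a u x = u (x + a) := rfl

lemma multiply_apply (v : lp (fun _ : Fin d → ℤ => ℝ) ⊤) (u : Ell2 d) (x : Fin d → ℤ) :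
    multiply d v u x = (v x : ℂ) * u x := rfl

lemma latticeOp_apply (t : ℝ) (v : lp (fun _ : Fin d → ℤ => ℝ) ⊤) (u : Ell2 d) :
    ⇑(latticeOp d t v u) = applyOp d t v u := by
  funext x
  simp only [latticeOp, applyOp, _root_.add_apply, _root_.smul_apply,
    _root_.sum_apply, lp.coeFn_add, lp.coeFn_smul, lp.coeFn_sum, Pi.add_apply,
    Pi.smul_apply, Finset.sum_apply, translate_apply, multiply_apply, smul_eq_mul, sub_eq_add_neg]

lemma norm_translate_le (a : Fin d → ℤ) : ‖translate d a‖ ≤ 1 :=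
  LinearMap.mkContinuous_norm_le _ zero_le_one _

lemma norm_latticeOp_le (t : ℝ) (v : lp (fun _ : Fin d → ℤ => ℝ) ⊤) :
    ‖latticeOp d t v‖ ≤ 2 * d * |t| + ‖v‖ := by
  refine (norm_add_le _ _).trans (add_le_add ?_ (LinearMap.mkContinuous_norm_le _ (norm_nonneg _) _))
  rw [norm_smul, Complex.norm_real, Real.norm_eq_abs, mul_comm]
  refine mul_le_mul_of_nonneg_right ((norm_sum_le _ _).trans ?_) (abs_nonneg _)
  refine (sum_le_card_nsmul _ _ 2 fun j _ => (norm_add_le _ _).trans ?_).trans (by simp [mul_comm])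
  linarith [norm_translate_le (d := d) (Pi.single j 1), norm_translate_le (d := d) (-Pi.single j 1)]

lemma norm_pot_le {c : ℝ} (hc : 0 ≤ c) (ω : (Fin d → ℤ) → unitInterval) :
    ‖c • centredPotentialBdd ω‖ ≤ c := by
  rw [norm_smul, Real.norm_of_nonneg hc]
  refine mul_le_of_le_one_right hc (lp.norm_le_of_forall_le zero_le_one fun x => ?_)
  have h0 := (ω x).2.1
  have h1 := (ω x).2.2
  change ‖2 * (ω x : ℝ) - 1‖ ≤ 1
  rw [Real.norm_eq_abs, abs_le]; constructor <;> linarith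

lemma pot_apply (c : ℝ) (ω : (Fin d → ℤ) → unitInterval) :
    ⇑(c • centredPotentialBdd ω) = fun x => c * centredPotential ω x := rfl

lemma norm_sq_of_supp (u : Ell2 d) (B : Finset (Fin d → ℤ)) (h : ∀ z, z ∉ B → u z = 0) :
    ‖u‖ ^ 2 = ∑ z ∈ B, ‖u z‖ ^ 2 := by
  have := lp.norm_rpow_eq_tsum (p := 2) (by norm_num) u
  simp only [ENNReal.toReal_ofNat, Real.rpow_ofNat] at this
  rw [this, tsum_eq_sum fun z hz => by simp [h z hz]]

/-- a finitely supported vector -/
noncomputable def fs (B : Finset (Fin d → ℤ)) (f : (Fin d → ℤ) → ℂ) : Ell2 d :=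
  ∑ z ∈ B, lp.single 2 z (f z)

lemma fs_apply (B : Finset (Fin d → ℤ)) (f : (Fin d → ℤ) → ℂ) (x : Fin d → ℤ) :
    fs B f x = if x ∈ B then f x else 0 := by
  rw [fs, lp.coeFn_sum, Finset.sum_apply]
  simp only [lp.single_apply, Pi.single_apply, sum_ite_eq]

/-- the box `x + [0, L)^d` -/
noncomputable def bx (x : Fin d → ℤ) (L : ℕ) : Finset (Fin d → ℤ) :=
  Fintype.piFinset fun j => Ico (x j) (x j + L)

lemma card_bx (x : Fin d → ℤ) (L : ℕ) : #(bx x L) = L ^ d := by simp [bx]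

lemma card_face (x : Fin d → ℤ) (L : ℕ) (j : Fin d) (c : ℤ) :
    #(Fintype.piFinset (Function.update (fun i => Ico (x i) (x i + L)) j {c})) * L = L ^ d := by
  rw [Fintype.card_piFinset, ← mul_prod_erase _ _ (mem_univ j), Function.update_self, card_singleton,
    one_mul, prod_congr rfl fun i hi => by rw [Function.update_of_ne (mem_erase.1 hi).1]]
  simp only [Int.card_Ico, add_sub_cancel_left, Int.toNat_natCast, prod_const]
  rw [← pow_succ, card_erase_add_one (mem_univ j), card_univ, Fintype.card_fin]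

/-- plane wave -/
noncomputable def pw (θ : ℝ) (y : Fin d → ℤ) : ℂ := Complex.exp ((θ * ∑ j, (y j : ℝ) : ℝ) * Complex.I)

lemma norm_pw (θ : ℝ) (y : Fin d → ℤ) : ‖pw θ y‖ = 1 := Complex.norm_exp_ofReal_mul_I _

lemma pw_add (θ : ℝ) (y : Fin d → ℤ) (j : Fin d) (s : ℤ) :
    pw θ (y + Pi.single j s) = Complex.exp ((θ * s : ℝ) * Complex.I) * pw θ y := by
  rw [pw, pw, ← Complex.exp_add]
  simp only [Pi.add_apply, Int.cast_add, sum_add_distrib, Pi.single_apply, Int.cast_ite,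
    Int.cast_zero, sum_ite_eq', mem_univ, if_true]
  congr 1; push_cast; ring

lemma norm_fs_pw (θ : ℝ) (x : Fin d → ℤ) (L : ℕ) : ‖fs (bx x L) (pw θ)‖ ^ 2 = L ^ d := by
  rw [norm_sq_of_supp _ (bx x L) fun z hz => by rw [fs_apply, if_neg hz],
    sum_congr rfl fun z hz => by rw [fs_apply, if_pos hz, norm_pw]]
  simp [card_bx]

lemma norm_shift_le (θ : ℝ) (x : Fin d → ℤ) {L : ℕ} (hL : 1 ≤ L) (j : Fin d) {s : ℤ}
    (hs : s = 1 ∨ s = -1) :
    ‖translate d (Pi.single j s) (fs (bx x L) (pw θ)) -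
      Complex.exp ((θ * s : ℝ) * Complex.I) • fs (bx x L) (pw θ)‖ ≤
      √(4 / L) * ‖fs (bx x L) (pw θ)‖ := by
  let F : ℤ → Finset (Fin d → ℤ) := fun c =>
    Fintype.piFinset (Function.update (fun i => Ico (x i) (x i + L)) j {c})
  set w := translate d (Pi.single j s) (fs (bx x L) (pw θ)) -
      Complex.exp ((θ * s : ℝ) * Complex.I) • fs (bx x L) (pw θ) with hw
  have h1 : ∀ z, w z = ((if z + Pi.single j s ∈ bx x L then 1 else 0) -
      if z ∈ bx x L then 1 else 0) * (Complex.exp ((θ * s : ℝ) * Complex.I) * pw θ z) := by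
    intro z
    simp only [hw, lp.coeFn_sub, lp.coeFn_smul, Pi.sub_apply, Pi.smul_apply, translate_apply,
      fs_apply, pw_add, smul_eq_mul]
    split_ifs <;> ring
  have h2 : ∀ z, ‖w z‖ ≤ 1 := fun z => by
    rw [h1, norm_mul, norm_mul, norm_pw, Complex.norm_exp_ofReal_mul_I]
    split_ifs <;> simp
  have h3 : ∀ z, z ∉ F (x j - 1) ∪ F (x j) ∪ F (x j + L - 1) ∪ F (x j + L) → w z = 0 := by
    intro z hz
    have h4 : z + Pi.single j s ∈ bx x L ↔ z ∈ bx x L := by
      have hF : ∀ c, z ∈ F c ↔ z j = c ∧ ∀ i, i ≠ j → x i ≤ z i ∧ z i < x i + L := fun c => by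
        simp only [F, Fintype.mem_piFinset]
        rw [Function.forall_update_iff _ fun i (S : Finset ℤ) => z i ∈ S]
        simp
      have hB : ∀ y, y ∈ bx x L ↔ (x j ≤ y j ∧ y j < x j + L) ∧
          ∀ i, i ≠ j → x i ≤ y i ∧ y i < x i + L := fun y => by
        simp only [bx, Fintype.mem_piFinset, mem_Ico]
        exact ⟨fun h => ⟨h j, fun i _ => h i⟩, fun h i => (em (i = j)).elim (· ▸ h.1) (h.2 i)⟩
      simp only [mem_union, hF, not_or, not_and'] at hz
      rw [hB, hB]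
      have e : (∀ i, i ≠ j → x i ≤ (z + Pi.single j s : Fin d → ℤ) i ∧
          (z + Pi.single j s : Fin d → ℤ) i < x i + L) ↔
          ∀ i, i ≠ j → x i ≤ z i ∧ z i < x i + L :=
        forall₂_congr fun i hi => by simp [hi]
      rw [e]
      refine and_congr_left fun h => ?_
      have := hz.1.1.1 h; have := hz.1.1.2 h; have := hz.1.2 h; have := hz.2 h
      simp only [Pi.add_apply, Pi.single_eq_same]
      omega
    simp [h1, h4]
  have hL0 : (0 : ℝ) < L := by exact_mod_cast hL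
  have h4 : ∀ c, (#(F c) : ℝ) = L ^ d / L := fun c => by
    rw [eq_div_iff hL0.ne']; exact_mod_cast card_face x L j c
  refine (pow_le_pow_iff_left₀ (norm_nonneg _) (by positivity) two_ne_zero).1 ?_
  rw [norm_sq_of_supp w _ h3, mul_pow, norm_fs_pw, Real.sq_sqrt (by positivity)]
  refine (sum_le_card_nsmul _ _ 1 fun z _ => pow_le_one₀ (norm_nonneg _) (h2 z)).trans ?_
  have h5 : #(F (x j - 1) ∪ F (x j) ∪ F (x j + L - 1) ∪ F (x j + L)) ≤
      #(F (x j - 1)) + #(F (x j)) + #(F (x j + L - 1)) + #(F (x j + L)) :=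
    (card_union_le _ _).trans (Nat.add_le_add_right ((card_union_le _ _).trans
      (Nat.add_le_add_right (card_union_le _ _) _)) _)
  rw [nsmul_eq_mul, mul_one]
  refine (Nat.cast_le.2 h5).trans (le_of_eq ?_)
  push_cast
  simp only [h4]; ring

lemma weyl_box (t θ w η : ℝ) (v : lp (fun _ : Fin d → ℤ => ℝ) ⊤) (x : Fin d → ℤ) {L : ℕ}
    (hL : 1 ≤ L) (hη : 0 ≤ η) (hv : ∀ y ∈ bx x L, |v y - w| ≤ η) :
    ‖latticeOp d t v (fs (bx x L) (pw θ)) -
      ((2 * d * t * Real.cos θ + w : ℝ) : ℂ) • fs (bx x L) (pw θ)‖ ≤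
      (2 * d * |t| * √(4 / L) + η) * ‖fs (bx x L) (pw θ)‖ := by
  set u := fs (bx x L) (pw θ) with hu
  have h1 : latticeOp d t v u - ((2 * d * t * Real.cos θ + w : ℝ) : ℂ) • u =
      (t : ℂ) • ∑ j, ((translate d (Pi.single j 1) u -
        Complex.exp ((θ * (1 : ℤ) : ℝ) * Complex.I) • u) + (translate d (Pi.single j (-1)) u -
        Complex.exp ((θ * (-1 : ℤ) : ℝ) * Complex.I) • u)) + (multiply d v u - (w : ℂ) • u) := by
    have e : Complex.exp ((θ * (-1 : ℤ) : ℝ) * Complex.I) =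
        2 * Complex.cos θ - Complex.exp ((θ * (1 : ℤ) : ℝ) * Complex.I) := by
      rw [Complex.two_cos]; push_cast; ring_nf
    simp only [latticeOp, _root_.add_apply, _root_.smul_apply,
      _root_.sum_apply, Pi.single_neg, e, sum_add_distrib, sum_sub_distrib, sum_const,
      card_univ, Fintype.card_fin, ← Nat.cast_smul_eq_nsmul ℂ]
    push_cast
    module
  have h2 : ‖multiply d v u - (w : ℂ) • u‖ ≤ η * ‖u‖ := by
    have e : ∀ z, (multiply d v u - (w : ℂ) • u) z = ((v z - w : ℝ) : ℂ) * u z := fun z => by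
      simp only [lp.coeFn_sub, lp.coeFn_smul, Pi.sub_apply, Pi.smul_apply, multiply_apply,
        smul_eq_mul]
      push_cast; ring
    have e0 : ∀ z, z ∉ bx x L → u z = 0 := fun z hz => by rw [hu, fs_apply, if_neg hz]
    refine (pow_le_pow_iff_left₀ (norm_nonneg _) (by positivity) two_ne_zero).1 ?_
    rw [mul_pow, norm_sq_of_supp u _ e0, norm_sq_of_supp _ (bx x L) fun z hz => by
      rw [e, e0 z hz, mul_zero], mul_sum]
    refine sum_le_sum fun z hz => ?_
    rw [e, norm_mul, mul_pow, Complex.norm_real, Real.norm_eq_abs]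
    gcongr
    exact hv z hz
  rw [h1, add_mul]
  refine (norm_add_le _ _).trans (add_le_add ?_ h2)
  rw [norm_smul, Complex.norm_real, Real.norm_eq_abs]
  have h3 := (norm_sum_le univ _).trans (sum_le_card_nsmul univ _ _ fun j _ =>
    (norm_add_le _ _).trans (add_le_add (norm_shift_le θ x hL j (Or.inl rfl))
      (norm_shift_le θ x hL j (Or.inr rfl))))
  refine (mul_le_mul_of_nonneg_left h3 (abs_nonneg _)).trans (le_of_eq ?_)
  rw [card_univ, Fintype.card_fin, nsmul_eq_mul]; ring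

lemma ae_exists_box (hd : 1 ≤ d) (L : ℕ) {S : Set unitInterval} (hS : MeasurableSet S)
    (h0 : volume S ≠ 0) : ∀ᵐ ω ∂(siteMeasure (Fin d → ℤ)), ∃ x, ∀ y ∈ bx x L, ω y ∈ S := by
  let j : Fin d := ⟨0, hd⟩
  let T := ↥(bx (0 : Fin d → ℤ) L)
  let f : ℕ × T → Fin d → ℤ := fun p => p.2.1 + Pi.single j (p.1 * L : ℤ)
  have hf : Function.Injective f := by
    rintro ⟨k, y⟩ ⟨k', y'⟩ h
    have h1 := congrFun h j
    have h2 := mem_Ico.1 (Fintype.mem_piFinset.1 y.2 j)
    have h3 := mem_Ico.1 (Fintype.mem_piFinset.1 y'.2 j)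
    simp only [f, Pi.add_apply, Pi.single_eq_same, Pi.zero_apply, zero_add] at h1 h2 h3
    obtain rfl : k = k' := by
      have : (k : ℤ) = k' := by nlinarith
      exact_mod_cast this
    exact Prod.ext rfl (Subtype.ext (add_right_cancel h))
  let ν : Measure (T → unitInterval) := Measure.infinitePi fun _ => volume
  let C : Set (T → unitInterval) := Set.pi (univ : Finset T) fun _ => S
  have hC : MeasurableSet C := .pi (Set.to_countable _) fun _ _ => hS
  have hν : ν Cᶜ < 1 := by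
    rw [prob_compl_eq_one_sub hC]
    refine ENNReal.sub_lt_self ENNReal.one_ne_top one_ne_zero ?_
    rw [Measure.infinitePi_pi _ fun _ _ => hS]
    exact prod_ne_zero_iff.2 fun _ _ => h0
  let g : ((Fin d → ℤ) → unitInterval) → ℕ → T → unitInterval := fun ω k y => ω (f (k, y))
  have hg : (siteMeasure (Fin d → ℤ)).map g = Measure.infinitePi fun _ => ν := by
    rw [← Measure.infinitePi_map_curry (fun (_ : ℕ) (_ : T) => (volume : Measure unitInterval)),
      ← Measure.map_infinitePi_infinitePi_of_inj (P := fun _ => (volume : Measure unitInterval)) hf,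
      Measure.map_map (by fun_prop) (by fun_prop)]
    rfl
  rw [ae_iff]
  refine le_antisymm (ge_of_tendsto' (ENNReal.tendsto_pow_atTop_nhds_zero_of_lt_one hν)
    fun K => ?_) zero_le
  have h1 := Measure.infinitePi_pi (fun _ : ℕ => ν) (s := range K) (t := fun _ => Cᶜ)
    fun _ _ => hC.compl
  rw [prod_const, card_range, ← hg, Measure.map_apply (by fun_prop)
    (.pi (Set.to_countable _) fun _ _ => hC.compl)] at h1
  rw [← h1]
  refine measure_mono fun ω hω (k : ℕ) _ hk => hω ⟨Pi.single j (k * L : ℤ), fun y hy => ?_⟩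
  have h2 : y - Pi.single j (k * L : ℤ) ∈ bx (0 : Fin d → ℤ) L := by
    refine Fintype.mem_piFinset.2 fun i => ?_
    have := mem_Ico.1 (Fintype.mem_piFinset.1 hy i)
    simp only [Pi.zero_apply, Pi.sub_apply, mem_Ico]
    omega
  simpa [g, f] using hk ⟨_, h2⟩ (mem_univ _)

lemma vol_ball_ne (q : unitInterval) {r : ℝ} (hr : 0 < r) : volume (Metric.ball q r) ≠ 0 := by
  rw [unitInterval.volume_apply]
  have h1 : Set.Ioo (max 0 (q - r)) (min 1 (q + r)) ⊆ Subtype.val '' Metric.ball q r := by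
    intro x hx
    simp only [Set.mem_Ioo, max_lt_iff, lt_min_iff] at hx
    exact ⟨⟨x, hx.1.1.le, hx.2.1.le⟩, by
      rw [Metric.mem_ball, Subtype.dist_eq, Real.dist_eq, abs_lt]; constructor <;> linarith [hx.1.2, hx.2.2], rfl⟩
  refine (lt_of_lt_of_le ?_ (measure_mono h1)).ne'
  have := q.2.1; have := q.2.2
  rw [Real.volume_Ioo, ENNReal.ofReal_pos, sub_pos, max_lt_iff, lt_min_iff, lt_min_iff]
  refine ⟨⟨?_, ?_⟩, ?_, ?_⟩ <;> linarith

/-- almost surely, Weyl vectors exist at every energy of `[-2d|t| - c, 2d|t| + c]` -/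
theorem ae_weyl (hd : 1 ≤ d) (t : ℝ) {c : ℝ} (hc : 0 < c) :
    ∀ᵐ ω ∂(siteMeasure (Fin d → ℤ)), ∀ E : ℝ, |E| ≤ 2 * d * |t| + c → ∀ η > 0, ∃ u : Ell2 d,
      ‖latticeOp d t (c • centredPotentialBdd ω) u - (E : ℂ) • u‖ < η * ‖u‖ := by
  obtain ⟨D, hD, hD'⟩ := TopologicalSpace.exists_countable_dense unitInterval
  have h1 : ∀ᵐ ω ∂(siteMeasure (Fin d → ℤ)), ∀ q ∈ D, ∀ L r : ℕ,
      ∃ x, ∀ y ∈ bx x L, ω y ∈ Metric.ball q (1 / ((r : ℝ) + 1)) :=
    (ae_ball_iff hD).2 fun q _ => ae_all_iff.2 fun L => ae_all_iff.2 fun r =>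
      ae_exists_box hd L measurableSet_ball (vol_ball_ne q (by positivity))
  filter_upwards [h1] with ω hω E hE η hη
  obtain ⟨θ, w, hw, rfl⟩ : ∃ θ w : ℝ, |w| ≤ c ∧ E = 2 * d * t * Real.cos θ + w := by
    have hcont : Continuous fun p : ℝ × ℝ => 2 * d * t * Real.cos p.1 + p.2 := by fun_prop
    have hpc : IsPreconnected ((Set.univ : Set ℝ) ×ˢ Set.Icc (-c) c) :=
      isPreconnected_univ.prod isPreconnected_Icc
    obtain ⟨θ₁, h₁⟩ : ∃ θ₁, t * Real.cos θ₁ = |t| := by
      rcases abs_choice t with h | h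
      exacts [⟨0, by simp [h]⟩, ⟨Real.pi, by simp [h]⟩]
    obtain ⟨p, hp, hp'⟩ := hpc.intermediate_value (a := (θ₁ + Real.pi, -c)) (b := (θ₁, c))
      ⟨trivial, le_rfl, by linarith⟩ ⟨trivial, by linarith, le_rfl⟩ hcont.continuousOn
      (show E ∈ _ from ⟨by
        simp only [Real.cos_add_pi, mul_neg, mul_assoc, h₁]; linarith [(abs_le.1 hE).1], by
        simp only [mul_assoc, h₁]; linarith [(abs_le.1 hE).2]⟩)
    exact ⟨p.1, p.2, abs_le.2 hp.2, hp'.symm⟩
  have h2 : Tendsto (fun L : ℕ => 2 * d * |t| * √(4 / L) + 4 * c * (1 / ((L : ℝ) + 1))) atTop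
      (𝓝 (2 * d * |t| * √0 + 4 * c * 0)) :=
    ((tendsto_const_div_atTop_nhds_zero_nat 4).sqrt.const_mul _).add
      (tendsto_one_div_add_atTop_nhds_zero_nat.const_mul _)
  simp only [Real.sqrt_zero, mul_zero, add_zero] at h2
  obtain ⟨L, hL, hL1⟩ := ((h2.eventually (gt_mem_nhds hη)).and (eventually_ge_atTop 1)).exists
  have hw' := abs_le.1 hw
  let s : unitInterval := ⟨(w / c + 1) / 2, by
    have := (le_div_iff₀ hc).2 (show -1 * c ≤ w by linarith); linarith, by
    have := (div_le_iff₀ hc).2 (show w ≤ 1 * c by linarith); linarith⟩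
  obtain ⟨q, hq, hq'⟩ := hD'.exists_dist_lt s (ε := 1 / ((L : ℝ) + 1)) (by positivity)
  obtain ⟨x, hx⟩ := hω q hq L L
  refine ⟨_, (weyl_box t θ w (4 * c * (1 / ((L : ℝ) + 1))) _ x hL1 (by positivity)
    fun y hy => ?_).trans_lt (mul_lt_mul_of_pos_right hL ?_)⟩
  · have h3 := (dist_triangle_right (ω y) s q).trans (add_lt_add (hx y hy) hq').le
    have h4 : (c • centredPotentialBdd ω) y - w = 2 * c * ((ω y : ℝ) - s) := by
      simp only [pot_apply, centredPotential, s]; field_simp; ring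
    rw [Subtype.dist_eq, Real.dist_eq] at h3
    rw [h4, abs_mul, abs_of_pos (by positivity)]
    nlinarith
  · refine lt_of_pow_lt_pow_left₀ 2 (norm_nonneg _) ?_
    rw [norm_fs_pw]
    have : (0 : ℝ) < L := by exact_mod_cast hL1
    simpa using pow_pos this d

/-- the spectrum contains `[-2d|t| - c, 2d|t| + c]` almost surely -/
theorem ae_mem_spectrum (hd : 1 ≤ d) (t : ℝ) {c : ℝ} (hc : 0 < c) :
    ∀ᵐ ω ∂(siteMeasure (Fin d → ℤ)), ∀ E : ℝ, |E| ≤ 2 * d * |t| + c →
      (E : ℂ) ∈ spectrum ℂ (latticeOp d t (c • centredPotentialBdd ω)) := by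
  filter_upwards [ae_weyl hd t hc] with ω hω E hE
  rw [spectrum.mem_iff]
  rintro ⟨U, hU⟩
  obtain ⟨u, hu⟩ := hω E hE (‖(↑U⁻¹ : Ell2 d →L[ℂ] Ell2 d)‖ + 1)⁻¹ (by positivity)
  have h1 : u = (↑U⁻¹ : Ell2 d →L[ℂ] Ell2 d) ((U : Ell2 d →L[ℂ] Ell2 d) u) := by
    rw [← mul_apply_eq_comp, U.inv_mul]; rfl
  have h2 : ‖(U : Ell2 d →L[ℂ] Ell2 d) u‖ =
      ‖latticeOp d t (c • centredPotentialBdd ω) u - (E : ℂ) • u‖ := by
    rw [hU, norm_sub_rev]; rfl
  have h3 := (↑U⁻¹ : Ell2 d →L[ℂ] Ell2 d).le_opNorm ((U : Ell2 d →L[ℂ] Ell2 d) u)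
  rw [← h1, h2] at h3
  rw [lt_inv_mul_iff₀ (by positivity)] at hu
  nlinarith [norm_nonneg (latticeOp d t (c • centredPotentialBdd ω) u - (E : ℂ) • u)]

end Crest.Agent.N334.Soft
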