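import Crest.Agent.N334.Soft.Defs
import Crest.Agent.N334.Soft.SW
import Crest.Agent.N334.Soft.PP
import Crest.Agent.N334.Soft.Weyl

/-!
# Row 334 (helper52): the finite-volume probability estimate and the orbit in `ℓ²(ℤ²)`
-/

set_option autoImplicit false

open Matrix Finset MeasureTheory Filter Topology
open scoped ENNReal Matrix.Norms.L2Operator

namespace Crest.Agent.N334.Soft

open Crest.MathPhysics.Anderson Crest.Agent.N336.Q

lemma ch_fc {n : Type} [Fintype n] [DecidableEq n] {H : Matrix n n ℂ} (hH : H.IsHermitian) (c : ℝ)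
    (hc : ∀ i, |c * ev H i| ≤ 1) (v : Vec n) : ∀ k, ch ((c : ℂ) • ap H) v k =
      ap (fr (fun x => Real.cos (k * Real.arccos (c * x))) H) v
  | 0 => by simp [ch, fr, fc_one]
  | 1 => by
    have : fr (fun x => Real.cos ((1 : ℕ) * Real.arccos (c * x))) H = (c : ℂ) • H := by
      conv_rhs => rw [← fc_id hH, fc_smul]
      exact fc_congr fun i => by
        beta_reduce
        rw [Nat.cast_one, one_mul, Real.cos_arccos (abs_le.1 (hc i)).1 (abs_le.1 (hc i)).2]; simp
    rw [this, ap_smul]; rfl
  | k + 2 => by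
    rw [ch, ch_fc hH c hc v k, ch_fc hH c hc v (k + 1), _root_.smul_apply, ← ap_mul, ← ap_smul,
      ← ap_smul, ← ap_sub]
    congr 2
    conv_lhs => lhs; rhs; rhs; lhs; rw [← fc_id hH]
    rw [fc_mul, fc_smul, fc_smul, fc_sub]
    refine fc_congr fun i => ?_
    beta_reduce
    have h1 := Real.cos_arccos (abs_le.1 (hc i)).1 (abs_le.1 (hc i)).2
    generalize Real.arccos (c * ev H i) = θ at h1
    have h2 : Real.cos ((k + 2 : ℕ) * θ) =
        2 * (c * (ev H i * Real.cos ((k + 1 : ℕ) * θ))) - Real.cos (k * θ) := by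
      rw [← mul_assoc c, ← h1, show ((k + 2 : ℕ) : ℝ) * θ = (k + 1 : ℕ) * θ + θ by push_cast; ring,
        show (k : ℝ) * θ = (k + 1 : ℕ) * θ - θ by push_cast; ring, Real.cos_add, Real.cos_sub]
      ring
    rw [h2]; push_cast; ring

lemma measurePreserving_update {Λ : Type} [DecidableEq Λ] (x : Λ) :
    MeasurePreserving (fun p : (Λ → unitInterval) × unitInterval => Function.update p.1 x p.2)
      ((siteMeasure Λ).prod volume) (siteMeasure Λ) := by
  have hm : Measurable fun p : (Λ → unitInterval) × unitInterval => Function.update p.1 x p.2 :=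
    measurable_update'
  refine ⟨hm, Measure.eq_infinitePi _ fun s t ht => ?_⟩
  rw [Measure.map_apply hm (.pi s.countable_toSet fun i _ => ht i)]
  have h1 : (fun p : (Λ → unitInterval) × unitInterval => Function.update p.1 x p.2) ⁻¹'
      Set.pi s t = Set.pi (s.erase x) t ×ˢ (if x ∈ s then t x else Set.univ) := by
    ext p
    simp only [Set.mem_preimage, Set.mem_pi, mem_coe, Set.mem_prod, mem_erase]
    refine ⟨fun h => ⟨fun i hi => by simpa [hi.1] using h i hi.2, ?_⟩, fun h i hi => ?_⟩
    · split_ifs with hx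
      · simpa using h x hx
      · trivial
    · by_cases hx : i = x
      · subst hx; simpa [hi] using h.2
      · simpa [hx] using h.1 i ⟨hx, hi⟩
  rw [h1, Measure.prod_prod, siteMeasure, Measure.infinitePi_pi _ fun i _ => ht i]
  split_ifs with hx
  · exact prod_erase_mul s (fun i => volume (t i)) hx
  · rw [erase_eq_of_notMem hx, measure_univ, mul_one]

instance (Λ : Type) : IsProbabilityMeasure (siteMeasure Λ) := by
  unfold siteMeasure; infer_instance

namespace FinVol

variable {n : ℕ} (F : FinVol n) {h : ℝ}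

lemma herm (h : ℝ) (ω : (Fin 2 → ℤ) → unitInterval) : (F.H h ω).IsHermitian := by
  refine IsHermitian.add (IsHermitian.ext fun i j => ?_)
    (isHermitian_diagonal_of_self_adjoint _ (funext fun i => by simp))
  simp [F.symm.apply]

/-- the Hamiltonian without the potential at the origin -/
noncomputable def H0 (h : ℝ) (ω : (Fin 2 → ℤ) → unitInterval) : Matrix F.ι F.ι ℂ :=
  Hv (F.H h ω) F.o (-(h * centredPotential ω 0))

lemma H_update (h : ℝ) (ω : (Fin 2 → ℤ) → unitInterval) (t : unitInterval) :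
    F.H h (Function.update ω 0 t) = Hv (F.H0 h ω) F.o (h * (2 * t - 1)) := by
  simp only [H0, Hv, H, add_assoc, diagonal_add]
  congr 2; funext y
  by_cases hy : y = F.o
  · subst hy; simp [F.e_o, centredPotential]
  · have : F.e y ≠ 0 := fun h => hy (F.e.injective (h.trans F.e_o.symm))
    simp [hy, this, centredPotential]

lemma norm_H_le (hh : 0 ≤ h) (ω : (Fin 2 → ℤ) → unitInterval) : ‖F.H h ω‖ ≤ 4 + h := by
  refine (norm_add_le _ _).trans (add_le_add F.norm_le ?_)
  rw [l2_opNorm_diagonal, pi_norm_le_iff_of_nonneg hh]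
  intro y
  have h0 := (ω (F.e y)).2.1
  have h1 := (ω (F.e y)).2.2
  rw [Complex.norm_real, Real.norm_eq_abs, abs_le, centredPotential]
  constructor <;> nlinarith

/-- the finite-volume Chebyshev orbit -/
noncomputable def orb (h : ℝ) (ω : (Fin 2 → ℤ) → unitInterval) (k : ℕ) : Vec F.ι :=
  ch ((((2 * (4 + h))⁻¹ : ℝ) : ℂ) • ap (F.H h ω)) (EuclideanSpace.single F.o 1) k

lemma measurable_orb (h : ℝ) : ∀ k y, Measurable fun ω => F.orb h ω k y := by
  have hH : ∀ y z, Measurable fun ω => F.H h ω y z := fun y z => by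
    simp only [H, Matrix.add_apply, diagonal_apply, centredPotential]
    refine measurable_const.add (Measurable.ite (MeasurableSet.const _) ?_ measurable_const)
    fun_prop
  intro k
  induction k using Nat.twoStepInduction with
  | zero => exact fun y => measurable_const
  | one => exact fun y => (Finset.measurable_sum _ fun z _ => (hH y z).mul_const _).const_mul _
  | more k h1 h2 => exact fun y => (((Finset.measurable_sum _ fun z _ =>
      (hH y z).mul (h2 z)).const_mul _).const_mul _).sub (h1 y)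

lemma prob_le (hh : 0 < h) (R : ℕ) {a b : ℝ} (ha : 0 ≤ a) (hb : 0 < b) :
    siteMeasure (Fin 2 → ℤ) {ω | ∃ k, 2 * h * a + √b < tl (F.far R) (F.orb h ω k)} ≤
      ENNReal.ofReal (Real.pi / b / (2 * h)) * (volume : Measure ℝ).prod (siteMeasure (Fin 2 → ℤ))
        {p | |p.1| ≤ 4 + h ∧ a ^ 2 < F.tail h R p.1 p.2} := by
  have hA : MeasurableSet {ω | ∃ k, 2 * h * a + √b < tl (F.far R) (F.orb h ω k)} := by
    rw [Set.ofPred_exists]
    refine MeasurableSet.iUnion fun k => measurableSet_lt measurable_const ?_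
    have : (fun ω => tl (F.far R) (F.orb h ω k)) =
        fun ω => √(∑ y ∈ F.far R, ‖F.orb h ω k y‖ ^ 2) := funext fun ω => by
      rw [← tl_sq, Real.sqrt_sq (tl_nonneg _ _)]
    rw [this]
    exact (Finset.measurable_sum _ fun y _ => (F.measurable_orb h k y).norm.pow_const 2).sqrt
  rw [← (measurePreserving_update (0 : Fin 2 → ℤ)).measure_preimage hA.nullMeasurableSet,
    Measure.prod_apply ((measurePreserving_update _).measurable hA), ← measure_toMeasurable,
    Measure.prod_apply_symm (measurableSet_toMeasurable _ _),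
    ← lintegral_const_mul' _ _ ENNReal.ofReal_ne_top]
  refine lintegral_mono fun ω => ?_
  have hH0 : (F.H0 h ω).IsHermitian := Hv_herm (F.herm h ω) _ _
  have ht : ∀ t : unitInterval, |h * (2 * t - 1)| ≤ h := fun t => by
    have h0 := t.2.1
    have h1 := t.2.2
    rw [abs_le]; constructor <;> nlinarith
  have hM : ∀ v, |v| ≤ h → ‖Hv (F.H0 h ω) F.o v‖ ≤ 4 + h := fun v hv => by
    have hv' := abs_le.1 hv
    let s : unitInterval := ⟨(v / h + 1) / 2, by
      have := (le_div_iff₀ hh).2 (show -1 * h ≤ v by linarith); linarith, by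
      have := (div_le_iff₀ hh).2 (show v ≤ 1 * h by linarith); linarith⟩
    have : v = h * (2 * s - 1) := by simp only [s]; field_simp; ring
    rw [this, ← H_update]; exact F.norm_H_le hh.le _
  set B := Bad (F.H0 h ω) F.o (F.far R) h (2 * h * a)
  calc _ ≤ volume ((fun t : ℝ => 2 * h * t) ⁻¹' ((fun t => t + -h) ⁻¹'
          {v | b ≤ mass (Hv (F.H0 h ω) F.o v) F.o B})) := by
        rw [unitInterval.volume_apply]
        refine measure_mono ?_
        rintro _ ⟨t, ⟨k, hk⟩, rfl⟩
        simp only [Set.mem_preimage, Set.mem_ofPred_eq]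
        rw [show 2 * h * t + -h = h * (2 * t - 1) by ring]
        have h1 : ∀ i, |(2 * (4 + h))⁻¹ * ev (Hv (F.H0 h ω) F.o (h * (2 * t - 1))) i| ≤ 1 := by
          intro i
          rw [abs_mul, abs_of_pos (by positivity), inv_mul_le_iff₀ (by positivity)]
          linarith [(abs_ev_le (Hv_herm hH0 _ _) i).trans (hM _ (ht t))]
        simp only [orb, H_update, ch_fc (Hv_herm hH0 _ _) _ h1] at hk
        have h2 := tl_fc_le hH0 F.o (F.far R) (a := 2 * h * a) (by positivity) (ht t)
          (f := fun x => (Real.cos (k * Real.arccos ((2 * (4 + h))⁻¹ * x)) : ℝ)) fun i => by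
            rw [Complex.norm_real]; exact Real.abs_cos_le_one _
        have h3 : (ap (fr (fun x => Real.cos (k * Real.arccos ((2 * (4 + h))⁻¹ * x)))
            (Hv (F.H0 h ω) F.o (h * (2 * t - 1)))) (EuclideanSpace.single F.o 1)).ofLp =
            fun y => fr (fun x => Real.cos (k * Real.arccos ((2 * (4 + h))⁻¹ * x)))
              (Hv (F.H0 h ω) F.o (h * (2 * t - 1))) y F.o := by
          funext y; simp [ap_apply]
        rw [h3] at hk
        exact (Real.sqrt_lt_sqrt_iff hb.le).1 (by linarith) |>.le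
    _ = ENNReal.ofReal (1 / (2 * h)) * volume {v | b ≤ mass (Hv (F.H0 h ω) F.o v) F.o B} := by
        rw [Real.volume_preimage_mul_left (by positivity), measure_preimage_add_right,
          abs_of_pos (by positivity), one_div]
    _ ≤ ENNReal.ofReal (1 / (2 * h)) * (ENNReal.ofReal (Real.pi / b) * volume B) := by
        gcongr; exact spectral_avg hH0 _ _ hb
    _ ≤ _ := by
        rw [← mul_assoc, ← ENNReal.ofReal_mul (by positivity), mul_comm (1 / _), mul_one_div]
        refine mul_le_mul_right ?_ _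
        refine (volume_Bad_le hH0 F.o (F.far R) (ht (ω 0)) hM).trans (measure_mono fun E hE => ?_)
        refine subset_toMeasurable _ _ ⟨hE.1, ?_⟩
        have h1 := pow_lt_pow_left₀ hE.2 ha two_ne_zero
        rwa [tl_sq, ← H_update, Function.update_eq_self] at h1

/-- extension by zero -/
noncomputable def ext : Vec F.ι →ₗ[ℂ] Ell2 2 where
  toFun u := ∑ y, lp.single 2 (F.e y) (u y)
  map_add' u w := by simp [lp.single_add, sum_add_distrib]
  map_smul' c u := by simp only [PiLp.smul_apply, lp.single_smul, smul_sum, RingHom.id_apply]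

lemma ext_apply (u : Vec F.ι) (z : Fin 2 → ℤ) :
    F.ext u z = ∑ y, if z = F.e y then u y else 0 := by
  change (∑ y, lp.single 2 (F.e y) (u y) : Ell2 2) z = _
  rw [lp.coeFn_sum, Finset.sum_apply]
  simp only [lp.single_apply, Pi.single_apply]

end FinVol

lemma adj_comm {d : ℕ} (x y : Fin d → ℤ) : adj x y = adj y x :=
  sum_congr rfl fun j _ => by
    rw [add_comm]
    congr 1 <;> refine if_congr ?_ rfl rfl
    · rw [eq_sub_iff_add_eq, eq_comm]
    · rw [eq_sub_iff_add_eq, eq_comm]

lemma adj_ne_zero {d : ℕ} {x y : Fin d → ℤ} (h : adj x y ≠ 0) (j : Fin d) : |y j| ≤ |x j| + 1 := by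
  obtain ⟨i, -, hi⟩ := exists_ne_zero_of_sum_ne_zero h
  have h1 : |(Pi.single i 1 : Fin d → ℤ) j| ≤ 1 := by
    rw [Pi.single_apply]; split_ifs <;> simp
  by_cases h2 : y = x + Pi.single i 1
  · rw [h2]; exact (abs_add_le _ _).trans (add_le_add_right h1 _)
  · by_cases h3 : y = x - Pi.single i 1
    · rw [h3]; exact (abs_sub _ _).trans (add_le_add_right h1 _)
    · simp [h2, h3] at hi

namespace FinVol

variable {n : ℕ} (F : FinVol n) {h : ℝ}

/-- supported in the ball of radius `m` -/
def Sup (m : ℕ) (u : Vec F.ι) : Prop := ∀ y, u y ≠ 0 → ∀ j, |F.e y j| ≤ m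

lemma H_apply (h : ℝ) (ω : (Fin 2 → ℤ) → unitInterval) {u : Vec F.ι} (hu : F.Sup n u) (y : F.ι) :
    ap (F.H h ω) u y = ∑ x, (adj (F.e x) (F.e y) : ℂ) * u x +
      (h * centredPotential ω (F.e y) : ℝ) * u y := by
  simp only [ap_apply, H, Matrix.add_apply, add_mul, sum_add_distrib, diagonal_apply, ite_mul,
    zero_mul, sum_ite_eq, mem_univ, if_true, map_apply]
  congr 1
  refine sum_congr rfl fun x _ => ?_
  by_cases hx : u x = 0
  · simp [hx]
  · rw [← F.symm.apply, F.adj_eq x y (hu x hx)]

lemma Sup.H {F : FinVol n} (h : ℝ) (ω : (Fin 2 → ℤ) → unitInterval) {m : ℕ} {u : Vec F.ι}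
    (hu : F.Sup m u) (hm : m ≤ n) : F.Sup (m + 1) (ap (F.H h ω) u) := by
  intro y hy j
  rw [F.H_apply h ω fun y hy j => (hu y hy j).trans (by exact_mod_cast hm)] at hy
  by_cases h1 : u y = 0
  · rw [h1, mul_zero, add_zero] at hy
    obtain ⟨x, -, hx⟩ := exists_ne_zero_of_sum_ne_zero hy
    have h2 := adj_ne_zero (fun h => by simp [h] at hx : adj (F.e x) (F.e y) ≠ 0) j
    have h3 := hu x (right_ne_zero_of_mul hx) j
    push_cast; linarith
  · have := hu y h1 j
    push_cast; linarith

lemma ext_H (h : ℝ) (ω : (Fin 2 → ℤ) → unitInterval) {u : Vec F.ι} (hu : F.Sup n u) :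
    F.ext (ap (F.H h ω) u) = latticeOp 2 1 (h • centredPotentialBdd ω) (F.ext u) := by
  ext z
  rw [latticeOp_apply, applyOp, pot_apply]
  simp only [ext_apply, F.H_apply h ω hu, Complex.ofReal_one, one_mul, mul_sum, ← sum_add_distrib]
  rw [sum_comm, ← sum_add_distrib]
  have h1 : ∀ x, ∑ j : Fin 2, ((if z + Pi.single j 1 = F.e x then u x else 0) +
      if z - Pi.single j 1 = F.e x then u x else 0) = (adj (F.e x) z : ℂ) * u x := fun x => by
    rw [adj_comm, adj]; push_cast
    rw [sum_mul]
    refine sum_congr rfl fun j _ => ?_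
    simp only [eq_comm (a := F.e x)]
    split_ifs <;> push_cast <;> ring
  simp only [h1, sum_add_distrib]
  by_cases hz : ∃ y, F.e y = z
  · obtain ⟨y, rfl⟩ := hz
    simp [F.e.injective.eq_iff]
  · have h2 : ∀ y, ¬ z = F.e y := fun y h => hz ⟨y, h.symm⟩
    simp only [h2, if_false, sum_const_zero, mul_zero, add_zero]
    refine (sum_eq_zero fun x _ => ?_).symm
    by_contra hx
    refine hz (F.cover z fun j => ?_)
    have h3 := adj_ne_zero (fun h => by simp [h] at hx : adj (F.e x) z ≠ 0) j
    linarith [hu x (right_ne_zero_of_mul hx) j]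

lemma ext_orb (h : ℝ) (ω : (Fin 2 → ℤ) → unitInterval) : ∀ k ≤ n, F.Sup k (F.orb h ω k) ∧
    F.ext (F.orb h ω k) = ch ((((2 * (4 + h))⁻¹ : ℝ) : ℂ) •
      latticeOp 2 1 (h • centredPotentialBdd ω)) (lp.single 2 0 1) k := by
  have h0 : F.Sup 0 (EuclideanSpace.single F.o 1) := fun y hy j => by
    obtain rfl : y = F.o := by by_contra h; simp [h] at hy
    simp [F.e_o]
  have h1 : F.ext (EuclideanSpace.single F.o 1) = lp.single 2 0 1 := by
    ext z
    rw [ext_apply, sum_eq_single F.o] <;> simp +contextual [F.e_o, lp.single_apply, Pi.single_apply]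
  have h2 : ∀ {m} {u : Vec F.ι}, F.Sup m u → m ≤ n → F.Sup n u := fun hu hm y hy j =>
    (hu y hy j).trans (by exact_mod_cast hm)
  intro k
  induction k using Nat.twoStepInduction with
  | zero => exact fun _ => ⟨h0, h1⟩
  | one =>
    refine fun hn => ⟨fun y hy => h0.H h ω n.zero_le y (right_ne_zero_of_mul hy), ?_⟩
    simp only [orb, ch, _root_.smul_apply, map_smul, F.ext_H h ω (h2 h0 n.zero_le), h1]
  | more k i1 i2 =>
    intro hn
    obtain ⟨i1, i1'⟩ := i1 (by omega)
    obtain ⟨i2, i2'⟩ := i2 (by omega)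
    refine ⟨fun y hy j => ?_, ?_⟩
    · by_cases h3 : F.orb h ω k y = 0
      · refine i2.H h ω (by omega) y (fun h4 => hy ?_) j
        change 2 * (_ * ap (F.H h ω) (F.orb h ω (k + 1)) y) - F.orb h ω k y = 0
        rw [h3, h4]; simp
      · have := i1 y h3 j
        push_cast; linarith
    · rw [ch, ← i1', ← i2', _root_.smul_apply, ← F.ext_H h ω (h2 i2 (by omega)), ← map_smul,
        ← map_smul, ← map_sub]
      rfl

end FinVol

end Crest.Agent.N334.Soft
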